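import Vale.Agent.P221.T.Filt

/-!
# P221, part V: iterated extensions of filtered systems

* `PMap d Z Y e` : a map of systems of degree `e` in (target) degrees `≥ d`;
* `PSub d Y` : a subsystem in degrees `≥ d`; `U.sys` its system (zero in degrees `< d`);
* `b.ker` : the kernel of a map of degree `0`;
* `sumSys B e`, `inc`, `sumMap c` : finite sums of suspensions;
* `FExt d i m Y` : in degrees `≥ d`, `Y` is an iterated extension of `m` filtered systems whose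
  graded modules have resolutions of length `i` in the window.
-/

open MvPolynomial

namespace Vale.Agent.P221.V

open Vale.Agent.P221.T

variable {p n : ℕ} {S : Src p n}

/-- maps of systems of degree `e`, in target degrees `≥ d` -/
structure PMap (d : ℤ) (Z Y : Sys S) (e : ℤ) where
  /-- the map on `A` -/
  f : ∀ {k k' : ℤ}, k + e = k' → Z.A k →+ Y.A k'
  /-- the map on `π` -/
  g : ∀ {k k' : ℤ}, k + e = k' → Z.Pi k →+ Y.Pi k'
  ev : ∀ {k k' : ℤ} (h : k + e = k') (a : Z.A k), d ≤ k' → Y.ev k' (f h a) = g h (Z.ev k a)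
  act : ∀ {k m l k' l' : ℤ} (h : k + m = l) (h₁ : k + e = k') (h₂ : k' + m = l')
    (h₃ : l + e = l') (a : Z.A k) (γ : S.E m), d ≤ k' → d ≤ l' →
    f h₃ (Z.act h a γ) = Y.act h₂ (f h₁ a) γ

/-- onto in degrees `≥ d` -/
def PMap.Onto {d : ℤ} {Z Y : Sys S} (b : PMap d Z Y 0) : Prop :=
  (∀ k, d ≤ k → ∀ a : Y.A k, ∃ z, b.f (add_zero k) z = a) ∧
    ∀ k, d ≤ k → ∀ a : Y.Pi k, ∃ z, b.g (add_zero k) z = a

/-- injective in degrees `≥ d` -/
def PMap.Inj {d : ℤ} {Z Y : Sys S} (b : PMap d Z Y 0) : Prop :=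
  (∀ k, d ≤ k → ∀ a : Z.A k, b.f (add_zero k) a = 0 → a = 0) ∧
    ∀ k, d ≤ k → ∀ a : Z.Pi k, b.g (add_zero k) a = 0 → a = 0

/-- a map of systems -/
def PMap.ofSys (d : ℤ) {Z Y : Sys S} {e : ℤ} (b : SysMap Z Y e) : PMap d Z Y e where
  f := b.f
  g := b.g
  ev h a _ := b.ev h a
  act h h₁ h₂ h₃ a γ _ _ := b.act h h₁ h₂ h₃ a γ

/-- composition with a map of degree `0` -/
def PMap.comp {d : ℤ} {B Y Q : Sys S} {e : ℤ} (c : PMap d B Y e) (b : PMap d Y Q 0) :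
    PMap d B Q e where
  f {_ k'} h := (b.f (add_zero k')).comp (c.f h)
  g {_ k'} h := (b.g (add_zero k')).comp (c.g h)
  ev {k k'} h a hk := by
    change Q.ev k' (b.f (add_zero k') (c.f h a)) = b.g (add_zero k') (c.g h (B.ev k a))
    rw [b.ev _ _ hk, c.ev _ _ hk]
  act {k m l k' l'} h h₁ h₂ h₃ a γ hk hl := by
    change b.f (add_zero l') (c.f h₃ (B.act h a γ)) = Q.act h₂ (b.f (add_zero k') (c.f h₁ a)) γ
    rw [c.act h h₁ h₂ h₃ a γ hk hl, b.act h₂ (add_zero k') h₂ (add_zero l') _ γ hk hl]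

/-! ### subsystems -/

open Classical in
/-- corestriction, or zero -/
noncomputable def cut {G H : Type} [AddCommGroup G] [AddCommGroup H] (P : Prop)
    (K : AddSubgroup H) (φ : G →+ H) (hφ : P → ∀ a, φ a ∈ K) : G →+ K :=
  if h : P then φ.codRestrict K (hφ h) else 0

theorem cut_coe {G H : Type} [AddCommGroup G] [AddCommGroup H] (P : Prop)
    (K : AddSubgroup H) (φ : G →+ H) (hφ : P → ∀ a, φ a ∈ K) (h : P) (a : G) :
    (cut P K φ hφ a : H) = φ a := by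
  unfold cut
  rw [dif_pos h]
  rfl

/-- a subsystem in degrees `≥ d` -/
structure PSub (d : ℤ) (Y : Sys S) where
  /-- the part of `A` -/
  A : ∀ k, AddSubgroup (Y.A k)
  /-- the part of `π` -/
  Pi : ∀ k, AddSubgroup (Y.Pi k)
  ev : ∀ {k : ℤ} {a : Y.A k}, d ≤ k → a ∈ A k → Y.ev k a ∈ Pi k
  act : ∀ {k m l : ℤ} (h : k + m = l) {a : Y.A k} (γ : S.E m), d ≤ k → d ≤ l → a ∈ A k →
    Y.act h a γ ∈ A l

section

variable {d : ℤ} {Y : Sys S} (U : PSub d Y)

open Classical in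
/-- cut off below degree `d` -/
noncomputable def PSub.A' (k : ℤ) : AddSubgroup (Y.A k) := if d ≤ k then U.A k else ⊥

open Classical in
/-- cut off below degree `d` -/
noncomputable def PSub.Pi' (k : ℤ) : AddSubgroup (Y.Pi k) := if d ≤ k then U.Pi k else ⊥

theorem PSub.mem_A' {k : ℤ} {a : Y.A k} : a ∈ U.A' k ↔ (d ≤ k ∧ a ∈ U.A k) ∨ (¬ d ≤ k ∧ a = 0) := by
  unfold PSub.A'
  split_ifs with h
  · simp [h]
  · simp [h]

theorem PSub.mem_Pi' {k : ℤ} {a : Y.Pi k} :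
    a ∈ U.Pi' k ↔ (d ≤ k ∧ a ∈ U.Pi k) ∨ (¬ d ≤ k ∧ a = 0) := by
  unfold PSub.Pi'
  split_ifs with h
  · simp [h]
  · simp [h]

theorem PSub.ev' {k : ℤ} {a : Y.A k} (ha : a ∈ U.A' k) : Y.ev k a ∈ U.Pi' k := by
  rcases (U.mem_A').1 ha with ⟨h, h'⟩ | ⟨h, h'⟩
  · exact (U.mem_Pi').2 (Or.inl ⟨h, U.ev h h'⟩)
  · exact (U.mem_Pi').2 (Or.inr ⟨h, by rw [h', map_zero]⟩)

theorem PSub.act' {k m l : ℤ} (h : k + m = l) {a : Y.A k} (γ : S.E m) (hl : d ≤ l)
    (ha : a ∈ U.A' k) : Y.act h a γ ∈ U.A' l := by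
  rcases (U.mem_A').1 ha with ⟨h1, h2⟩ | ⟨h1, h2⟩
  · exact (U.mem_A').2 (Or.inl ⟨hl, U.act h γ h1 hl h2⟩)
  · rw [h2, map_zero]
    exact AddSubgroup.zero_mem _

open Classical in
/-- the action -/
noncomputable def PSub.actE {k m l : ℤ} (h : k + m = l) : U.A' k →+ S.E m →+ U.A' l :=
  if hl : d ≤ l then
    AddMonoidHom.mk' (fun a => AddMonoidHom.mk' (fun γ => ⟨Y.act h a γ, U.act' h γ hl a.2⟩)
      fun γ γ' => Subtype.ext (map_add _ _ _)) fun a a' => by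
        refine DFunLike.ext _ _ fun γ => Subtype.ext ?_
        change Y.act h (a + a' : Y.A k) γ = Y.act h a γ + Y.act h a' γ
        rw [map_add]
        rfl
  else 0

theorem PSub.actE_pos {k m l : ℤ} (h : k + m = l) (hl : d ≤ l) (a : U.A' k) (γ : S.E m) :
    (U.actE h a γ : Y.A l) = Y.act h a γ := by
  unfold PSub.actE
  rw [dif_pos hl]
  rfl

theorem PSub.eq_zero_of_lt {k : ℤ} (hk : ¬ d ≤ k) (a : U.A' k) : a = 0 := by
  rcases (U.mem_A').1 a.2 with ⟨h, _⟩ | ⟨_, h⟩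
  · exact absurd h hk
  · exact Subtype.ext h

theorem PSub.eq_zero_of_lt' {k : ℤ} (hk : ¬ d ≤ k) (a : U.Pi' k) : a = 0 := by
  rcases (U.mem_Pi').1 a.2 with ⟨h, _⟩ | ⟨_, h⟩
  · exact absurd h hk
  · exact Subtype.ext h

theorem dd_nonneg' [Fact p.Prime] (l : ℕ) : 0 ≤ dd p n l := by
  unfold dd sV
  have h : (1 : ℤ) ≤ (p : ℤ) ^ (n + 1 + l) := by
    exact_mod_cast Nat.one_le_pow _ _ (Fact.out : p.Prime).pos
  linarith

variable [Fact p.Prime]

/-- the system of a subsystem -/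
noncomputable def PSub.sys : Sys S where
  A k := U.A' k
  Pi k := U.Pi' k
  ev k := ((Y.ev k).comp (U.A' k).subtype).codRestrict (U.Pi' k) fun a => U.ev' a.2
  act h := U.actE h
  comm i l {k k₁ k₂ k'} h₁ h₁' h₂ h₂' a := by
    by_cases hk : d ≤ k
    · have e1 := dd_nonneg' (p := p) (n := n) i
      have e2 := dd_nonneg' (p := p) (n := n) l
      apply Subtype.ext
      rw [U.actE_pos h₁' (by omega), U.actE_pos h₁ (by omega), U.actE_pos h₂' (by omega),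
        U.actE_pos h₂ (by omega)]
      exact Y.comm i l h₁ h₁' h₂ h₂' a
    · rw [U.eq_zero_of_lt hk a]
      simp only [map_zero, AddMonoidHom.zero_apply]

/-- the underlying element -/
noncomputable def PSub.vA (k : ℤ) : U.sys.A k →+ Y.A k := (U.A' k).subtype

/-- the underlying element -/
noncomputable def PSub.vP (k : ℤ) : U.sys.Pi k →+ Y.Pi k := (U.Pi' k).subtype

theorem PSub.vA_inj {k : ℤ} {a a' : U.sys.A k} (h : U.vA k a = U.vA k a') : a = a' :=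
  Subtype.ext h

theorem PSub.vP_inj {k : ℤ} {a a' : U.sys.Pi k} (h : U.vP k a = U.vP k a') : a = a' :=
  Subtype.ext h

theorem PSub.vA_act {k m l : ℤ} (h : k + m = l) (hl : d ≤ l) (a : U.sys.A k) (γ : S.E m) :
    U.vA l (U.sys.act h a γ) = Y.act h (U.vA k a) γ := U.actE_pos h hl a γ

theorem PSub.vP_ev {k : ℤ} (a : U.sys.A k) : U.vP k (U.sys.ev k a) = Y.ev k (U.vA k a) := rfl

theorem PSub.vA_mem {k : ℤ} (hk : d ≤ k) (a : U.sys.A k) : U.vA k a ∈ U.A k := by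
  rcases (U.mem_A').1 (Subtype.property (p := fun x => x ∈ U.A' k) a) with ⟨_, h⟩ | ⟨h, _⟩
  · exact h
  · exact absurd hk h

theorem PSub.vP_mem {k : ℤ} (hk : d ≤ k) (a : U.sys.Pi k) : U.vP k a ∈ U.Pi k := by
  rcases (U.mem_Pi').1 (Subtype.property (p := fun x => x ∈ U.Pi' k) a) with ⟨_, h⟩ | ⟨h, _⟩
  · exact h
  · exact absurd hk h

/-- elements -/
def PSub.el {k : ℤ} (hk : d ≤ k) (a : Y.A k) (ha : a ∈ U.A k) : U.sys.A k :=
  (⟨a, (U.mem_A').2 (Or.inl ⟨hk, ha⟩)⟩ : U.A' k)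

theorem PSub.vA_el {k : ℤ} (hk : d ≤ k) (a : Y.A k) (ha : a ∈ U.A k) :
    U.vA k (U.el hk a ha) = a := rfl

/-- elements -/
def PSub.elP {k : ℤ} (hk : d ≤ k) (a : Y.Pi k) (ha : a ∈ U.Pi k) : U.sys.Pi k :=
  (⟨a, (U.mem_Pi').2 (Or.inl ⟨hk, ha⟩)⟩ : U.Pi' k)

theorem PSub.vP_elP {k : ℤ} (hk : d ≤ k) (a : Y.Pi k) (ha : a ∈ U.Pi k) :
    U.vP k (U.elP hk a ha) = a := rfl

/-- the inclusion -/
noncomputable def PSub.incl : PMap d U.sys Y 0 where
  f {k k'} h := by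
    obtain rfl : k = k' := by omega
    exact U.vA k
  g {k k'} h := by
    obtain rfl : k = k' := by omega
    exact U.vP k
  ev {k k'} h a _ := by
    obtain rfl : k = k' := by omega
    rfl
  act {k m l k' l'} h h₁ h₂ h₃ a γ _ hl := by
    obtain rfl : k = k' := by omega
    obtain rfl : l = l' := by omega
    exact U.vA_act h hl a γ

theorem PSub.incl_f {k : ℤ} (a : U.sys.A k) : U.incl.f (add_zero k) a = U.vA k a := rfl

theorem PSub.incl_g {k : ℤ} (a : U.sys.Pi k) : U.incl.g (add_zero k) a = U.vP k a := rfl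

theorem PSub.incl_inj : U.incl.Inj :=
  ⟨fun _ _ _ h => Subtype.ext h, fun _ _ _ h => Subtype.ext h⟩

/-- maps into a subsystem -/
noncomputable def PSub.cutA {G : Type} [AddCommGroup G] {k : ℤ} (φ : G →+ Y.A k)
    (hφ : d ≤ k → ∀ a, φ a ∈ U.A k) : G →+ U.sys.A k :=
  cut (d ≤ k) (U.A' k) φ fun hk a => (U.mem_A').2 (Or.inl ⟨hk, hφ hk a⟩)

/-- maps into a subsystem -/
noncomputable def PSub.cutP {G : Type} [AddCommGroup G] {k : ℤ} (φ : G →+ Y.Pi k)
    (hφ : d ≤ k → ∀ a, φ a ∈ U.Pi k) : G →+ U.sys.Pi k :=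
  cut (d ≤ k) (U.Pi' k) φ fun hk a => (U.mem_Pi').2 (Or.inl ⟨hk, hφ hk a⟩)

theorem PSub.vA_cutA {G : Type} [AddCommGroup G] {k : ℤ} (φ : G →+ Y.A k)
    (hφ : d ≤ k → ∀ a, φ a ∈ U.A k) (hk : d ≤ k) (a : G) : U.vA k (U.cutA φ hφ a) = φ a :=
  cut_coe _ _ _ _ hk a

theorem PSub.vP_cutP {G : Type} [AddCommGroup G] {k : ℤ} (φ : G →+ Y.Pi k)
    (hφ : d ≤ k → ∀ a, φ a ∈ U.Pi k) (hk : d ≤ k) (a : G) : U.vP k (U.cutP φ hφ a) = φ a :=
  cut_coe _ _ _ _ hk a

/-- maps into a subsystem -/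
noncomputable def PSub.cod {B : Sys S} {e : ℤ} (c : PMap d B Y e)
    (hf : ∀ {k k' : ℤ} (h : k + e = k'), d ≤ k' → ∀ a : B.A k, c.f h a ∈ U.A k')
    (hg : ∀ {k k' : ℤ} (h : k + e = k'), d ≤ k' → ∀ a : B.Pi k, c.g h a ∈ U.Pi k') :
    PMap d B U.sys e where
  f h := U.cutA (c.f h) (hf h)
  g h := U.cutP (c.g h) (hg h)
  ev {k k'} h a hk := by
    apply U.vP_inj
    rw [U.vP_ev, U.vA_cutA _ _ hk, U.vP_cutP _ _ hk]
    exact c.ev h a hk
  act {k m l k' l'} h h₁ h₂ h₃ a γ hk hl := by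
    apply U.vA_inj
    rw [U.vA_act _ hl, U.vA_cutA _ _ hk, U.vA_cutA _ _ hl]
    exact c.act h h₁ h₂ h₃ a γ hk hl

variable {B : Sys S} {e : ℤ} (c : PMap d B Y e)
    (hf : ∀ {k k' : ℤ} (h : k + e = k'), d ≤ k' → ∀ a : B.A k, c.f h a ∈ U.A k')
    (hg : ∀ {k k' : ℤ} (h : k + e = k'), d ≤ k' → ∀ a : B.Pi k, c.g h a ∈ U.Pi k')

theorem PSub.vA_cod {k k' : ℤ} (h : k + e = k') (hk : d ≤ k') (a : B.A k) :
    U.vA k' ((U.cod c hf hg).f h a) = c.f h a := U.vA_cutA _ (hf h) hk a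

theorem PSub.vP_cod {k k' : ℤ} (h : k + e = k') (hk : d ≤ k') (a : B.Pi k) :
    U.vP k' ((U.cod c hf hg).g h a) = c.g h a := U.vP_cutP _ (hg h) hk a

end

/-! ### kernels -/

section

variable {d : ℤ} {Y Q : Sys S}

/-- the kernel of a map of degree `0` -/
def PMap.ker (b : PMap d Y Q 0) : PSub d Y where
  A k := (b.f (add_zero k)).ker
  Pi k := (b.g (add_zero k)).ker
  ev {k a} hk ha := by
    rw [AddMonoidHom.mem_ker] at ha ⊢
    rw [← b.ev _ _ hk, ha, map_zero]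
  act {k m l} h {a} γ hk hl ha := by
    rw [AddMonoidHom.mem_ker] at ha ⊢
    rw [b.act h (add_zero k) h (add_zero l) a γ hk hl, ha, map_zero, AddMonoidHom.zero_apply]

theorem PMap.mem_ker {b : PMap d Y Q 0} {k : ℤ} {a : Y.A k} :
    a ∈ b.ker.A k ↔ b.f (add_zero k) a = 0 := Iff.rfl

theorem PMap.mem_kerP {b : PMap d Y Q 0} {k : ℤ} {a : Y.Pi k} :
    a ∈ b.ker.Pi k ↔ b.g (add_zero k) a = 0 := Iff.rfl

end

/-! ### sums -/

section

variable {J : Type} (B : Sys S) (e : J → ℤ)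

/-- the sum of the suspensions -/
def sumSys : Sys S where
  A k := ∀ j, B.A (k - e j)
  Pi k := ∀ j, B.Pi (k - e j)
  ev k := AddMonoidHom.mk' (fun w j => B.ev _ (w j)) fun w w' => funext fun j => map_add _ _ _
  act {k m k'} h := AddMonoidHom.mk' (fun w => AddMonoidHom.mk'
    (fun γ j => B.act (show k - e j + m = k' - e j by omega) (w j) γ)
      fun γ γ' => funext fun j => map_add _ _ _) fun w w' => by
        refine DFunLike.ext _ _ fun γ => funext fun j => ?_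
        change B.act _ (w j + w' j) γ = B.act _ (w j) γ + B.act _ (w' j) γ
        rw [map_add]
        rfl
  comm i l {k k₁ k₂ k'} h₁ h₁' h₂ h₂' a := funext fun j =>
    B.comm i l (by omega) (by omega) (by omega) (by omega) (a j)

theorem sumSys_act {k m k' : ℤ} (h : k + m = k') (w : (sumSys B e).A k) (γ : S.E m) (j : J) :
    (sumSys B e).act h w γ j = B.act (show k - e j + m = k' - e j by omega) (w j) γ := rfl

variable {B e} [Fintype J] {d : ℤ} {Y : Sys S}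

/-- the map given by maps of degree `e j` -/
def sumMap (c : ∀ j, PMap d B Y (e j)) : PMap d (sumSys B e) Y 0 where
  f {k k'} h := AddMonoidHom.mk' (fun w => ∑ j, (c j).f (show k - e j + e j = k' by omega) (w j))
    fun w w' => by
      rw [← Finset.sum_add_distrib]
      exact Finset.sum_congr rfl fun j _ => map_add _ _ _
  g {k k'} h := AddMonoidHom.mk' (fun w => ∑ j, (c j).g (show k - e j + e j = k' by omega) (w j))
    fun w w' => by
      rw [← Finset.sum_add_distrib]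
      exact Finset.sum_congr rfl fun j _ => map_add _ _ _
  ev {k k'} h w hk := by
    change Y.ev k' (∑ j, _) = ∑ j, _
    rw [map_sum]
    exact Finset.sum_congr rfl fun j _ => (c j).ev _ _ hk
  act {k m l k' l'} h h₁ h₂ h₃ w γ hk hl := by
    change ∑ j, _ = Y.act h₂ (∑ j, _) γ
    rw [map_sum, AddMonoidHom.finsetSum_apply]
    refine Finset.sum_congr rfl fun j _ => ?_
    exact (c j).act (show k - e j + m = l - e j by omega) _ h₂ _ (w j) γ hk hl

theorem sumMap_f (c : ∀ j, PMap d B Y (e j)) {k : ℤ} (w : (sumSys B e).A k) :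
    (sumMap c).f (add_zero k) w = ∑ j, (c j).f (sub_add_cancel k (e j)) (w j) := rfl

theorem sumMap_g (c : ∀ j, PMap d B Y (e j)) {k : ℤ} (w : (sumSys B e).Pi k) :
    (sumMap c).g (add_zero k) w = ∑ j, (c j).g (sub_add_cancel k (e j)) (w j) := rfl

end

/-! ### iterated extensions -/

/-- In degrees `≥ d`, `Y` is an iterated extension of `m` filtered systems whose graded modules have
resolutions of length `i` in the window. -/
def FExt [Fact p.Prime] (d : ℤ) (i : ℕ) : ℕ → Sys S → Prop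
  | 0, Y => (∀ k, d ≤ k → ∀ a : Y.A k, a = 0) ∧ ∀ k, d ≤ k → ∀ a : Y.Pi k, a = 0
  | m + 1, Y => ∃ (Q : Sys S) (b : PMap d Y Q 0) (N : Type) (_ : AddCommGroup N)
      (_ : Module (RR p n) N) (gr : ℤ → ℤ → AddSubgroup N), b.Onto ∧ IsGr p n gr ∧
      QQ p n d i N gr ∧ Nonempty (FS Q gr d) ∧ FExt d i m b.ker.sys

end Vale.Agent.P221.V
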