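import Vale.Agent.P221.V.Def
import Vale.Agent.P221.H598.V
import Vale.Agent.P221.T.H769.F1

/-!
# P221, part V: iterated extensions of filtered systems: isomorphisms, `H¹`, length `0`
-/

open MvPolynomial

set_option linter.unusedSectionVars false

namespace Vale.Agent.P221.V

open Vale.Agent.P221.T

variable {p n : ℕ} {S : Src p n} [Fact p.Prime]

/-! ### maps of kernels, inverses -/

section

variable {d : ℤ} {X X' Y Q Q' : Sys S}

theorem PSub.incl_mem (U : PSub d Y) {k k' : ℤ} (h : k + 0 = k') (hk : d ≤ k')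
    (a : U.sys.A k) : U.incl.f h a ∈ U.A k' := by
  obtain rfl : k = k' := by omega
  exact U.vA_mem hk a

theorem PSub.incl_memP (U : PSub d Y) {k k' : ℤ} (h : k + 0 = k') (hk : d ≤ k')
    (a : U.sys.Pi k) : U.incl.g h a ∈ U.Pi k' := by
  obtain rfl : k = k' := by omega
  exact U.vP_mem hk a

variable (φ : PMap d X X' 0) (b : PMap d X Q 0) (b' : PMap d X' Q' 0)

/-- the map of kernels -/
noncomputable def kerMap
    (hf : ∀ k, d ≤ k → ∀ a, b.f (add_zero k) a = 0 →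
      b'.f (add_zero k) (φ.f (add_zero k) a) = 0)
    (hg : ∀ k, d ≤ k → ∀ a, b.g (add_zero k) a = 0 →
      b'.g (add_zero k) (φ.g (add_zero k) a) = 0) : PMap d b.ker.sys b'.ker.sys 0 :=
  b'.ker.cod (b.ker.incl.comp φ)
    (fun {_ k'} h hk a => hf k' hk _ (b.ker.incl_mem h hk a))
    (fun {_ k'} h hk a => hg k' hk _ (b.ker.incl_memP h hk a))

variable {φ b b'} {hf : ∀ k, d ≤ k → ∀ a, b.f (add_zero k) a = 0 →
      b'.f (add_zero k) (φ.f (add_zero k) a) = 0}
    {hg : ∀ k, d ≤ k → ∀ a, b.g (add_zero k) a = 0 →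
      b'.g (add_zero k) (φ.g (add_zero k) a) = 0}

theorem vA_kerMap {k : ℤ} (hk : d ≤ k) (a : b.ker.sys.A k) :
    b'.ker.vA k ((kerMap φ b b' hf hg).f (add_zero k) a) = φ.f (add_zero k) (b.ker.vA k a) :=
  b'.ker.vA_cod (b.ker.incl.comp φ)
    (fun {_ k'} h hk a => hf k' hk _ (b.ker.incl_mem h hk a))
    (fun {_ k'} h hk a => hg k' hk _ (b.ker.incl_memP h hk a)) (add_zero k) hk a

theorem vP_kerMap {k : ℤ} (hk : d ≤ k) (a : b.ker.sys.Pi k) :
    b'.ker.vP k ((kerMap φ b b' hf hg).g (add_zero k) a) = φ.g (add_zero k) (b.ker.vP k a) :=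
  b'.ker.vP_cod (b.ker.incl.comp φ)
    (fun {_ k'} h hk a => hf k' hk _ (b.ker.incl_mem h hk a))
    (fun {_ k'} h hk a => hg k' hk _ (b.ker.incl_memP h hk a)) (add_zero k) hk a

end

section

variable {d : ℤ} {X X' : Sys S} (φ : PMap d X X' 0) (ho : φ.Onto) (hi : φ.Inj)

include ho hi in
theorem PMap.bijA {k : ℤ} (hk : d ≤ k) : Function.Bijective (φ.f (add_zero k)) :=
  ⟨(injective_iff_map_eq_zero _).2 (hi.1 k hk), ho.1 k hk⟩

include ho hi in
theorem PMap.bijP {k : ℤ} (hk : d ≤ k) : Function.Bijective (φ.g (add_zero k)) :=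
  ⟨(injective_iff_map_eq_zero _).2 (hi.2 k hk), ho.2 k hk⟩

open Classical in
/-- the inverse -/
noncomputable def PMap.invA (k : ℤ) : X'.A k →+ X.A k :=
  if hk : d ≤ k then (AddEquiv.ofBijective _ (φ.bijA ho hi hk)).symm.toAddMonoidHom else 0

open Classical in
/-- the inverse -/
noncomputable def PMap.invP (k : ℤ) : X'.Pi k →+ X.Pi k :=
  if hk : d ≤ k then (AddEquiv.ofBijective _ (φ.bijP ho hi hk)).symm.toAddMonoidHom else 0

theorem PMap.invA_spec {k : ℤ} (hk : d ≤ k) (a : X'.A k) :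
    φ.f (add_zero k) (φ.invA ho hi k a) = a := by
  unfold PMap.invA
  rw [dif_pos hk]
  exact (AddEquiv.ofBijective _ (φ.bijA ho hi hk)).apply_symm_apply a

theorem PMap.invP_spec {k : ℤ} (hk : d ≤ k) (a : X'.Pi k) :
    φ.g (add_zero k) (φ.invP ho hi k a) = a := by
  unfold PMap.invP
  rw [dif_pos hk]
  exact (AddEquiv.ofBijective _ (φ.bijP ho hi hk)).apply_symm_apply a

/-- the inverse of a bijective map -/
noncomputable def PMap.inv : PMap d X' X 0 where
  f {k k'} h := by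
    obtain rfl : k = k' := by omega
    exact φ.invA ho hi k
  g {k k'} h := by
    obtain rfl : k = k' := by omega
    exact φ.invP ho hi k
  ev {k k'} h a hk := by
    obtain rfl : k = k' := by omega
    apply (φ.bijP ho hi hk).1
    change φ.g _ (X.ev k (φ.invA ho hi k a)) = φ.g _ (φ.invP ho hi k (X'.ev k a))
    rw [φ.invP_spec ho hi hk, ← φ.ev (add_zero k) _ hk, φ.invA_spec ho hi hk]
  act {k m l k' l'} h h₁ h₂ h₃ a γ hk hl := by
    obtain rfl : k = k' := by omega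
    obtain rfl : l = l' := by omega
    apply (φ.bijA ho hi hl).1
    change φ.f _ (φ.invA ho hi l (X'.act h a γ)) = φ.f _ (X.act h (φ.invA ho hi k a) γ)
    rw [φ.invA_spec ho hi hl, φ.act h (add_zero k) h (add_zero l) _ γ hk hl,
      φ.invA_spec ho hi hk]

theorem PMap.inv_onto : (φ.inv ho hi).Onto := by
  refine ⟨fun k hk a => ⟨φ.f (add_zero k) a, ?_⟩, fun k hk a => ⟨φ.g (add_zero k) a, ?_⟩⟩
  · apply (φ.bijA ho hi hk).1
    exact φ.invA_spec ho hi hk _
  · apply (φ.bijP ho hi hk).1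
    exact φ.invP_spec ho hi hk _

theorem PMap.inv_inj : (φ.inv ho hi).Inj := by
  refine ⟨fun k hk a ha => ?_, fun k hk a ha => ?_⟩
  · rw [← φ.invA_spec ho hi hk a]
    change φ.f (add_zero k) ((φ.inv ho hi).f (add_zero k) a) = 0
    rw [ha, map_zero]
  · rw [← φ.invP_spec ho hi hk a]
    change φ.g (add_zero k) ((φ.inv ho hi).g (add_zero k) a) = 0
    rw [ha, map_zero]

end

/-! ### isomorphisms -/

theorem PMap.Onto.comp {d : ℤ} {X Y Q : Sys S} {c : PMap d X Y 0} {b : PMap d Y Q 0}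
    (hc : c.Onto) (hb : b.Onto) : (c.comp b).Onto := by
  refine ⟨fun k hk a => ?_, fun k hk a => ?_⟩
  · obtain ⟨y, rfl⟩ := hb.1 k hk a
    obtain ⟨x, rfl⟩ := hc.1 k hk y
    exact ⟨x, rfl⟩
  · obtain ⟨y, rfl⟩ := hb.2 k hk a
    obtain ⟨x, rfl⟩ := hc.2 k hk y
    exact ⟨x, rfl⟩

/-- (V3) -/
theorem FExt.of_iso {d : ℤ} {i : ℕ} : ∀ {m : ℕ} {X X' : Sys S} (φ : PMap d X X' 0), φ.Onto →
    φ.Inj → FExt d i m X' → FExt d i m X := by
  intro m
  induction m with
  | zero =>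
    intro X X' φ _ hi h
    exact ⟨fun k hk a => hi.1 k hk a (h.1 k hk _), fun k hk a => hi.2 k hk a (h.2 k hk _)⟩
  | succ m ih =>
    intro X X' φ ho hi h
    obtain ⟨Q, b, N, _, _, gr, hb, hgr, hQ, hT, hK⟩ := h
    have hf : ∀ k, d ≤ k → ∀ a, (φ.comp b).f (add_zero k) a = 0 →
      b.f (add_zero k) (φ.f (add_zero k) a) = 0 := fun k _ a ha => ha
    have hg : ∀ k, d ≤ k → ∀ a, (φ.comp b).g (add_zero k) a = 0 →
      b.g (add_zero k) (φ.g (add_zero k) a) = 0 := fun k _ a ha => ha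
    refine ⟨Q, φ.comp b, N, _, _, gr, ho.comp hb, hgr, hQ, hT, ih
      (kerMap φ (φ.comp b) b hf hg) ⟨fun k hk x => ?_, fun k hk x => ?_⟩
        ⟨fun k hk a ha => ?_, fun k hk a ha => ?_⟩ hK⟩
    · obtain ⟨a, ha⟩ := ho.1 k hk (b.ker.vA k x)
      refine ⟨(φ.comp b).ker.el hk a ?_, b.ker.vA_inj ?_⟩
      · change b.f (add_zero k) (φ.f (add_zero k) a) = 0
        rw [ha]
        exact b.ker.vA_mem hk x
      · rw [vA_kerMap hk, PSub.vA_el, ha]
    · obtain ⟨a, ha⟩ := ho.2 k hk (b.ker.vP k x)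
      refine ⟨(φ.comp b).ker.elP hk a ?_, b.ker.vP_inj ?_⟩
      · change b.g (add_zero k) (φ.g (add_zero k) a) = 0
        rw [ha]
        exact b.ker.vP_mem hk x
      · rw [vP_kerMap hk, PSub.vP_elP, ha]
    · apply (φ.comp b).ker.vA_inj
      rw [map_zero]
      apply hi.1 k hk
      rw [← vA_kerMap (hf := hf) (hg := hg) hk, ha, map_zero]
    · apply (φ.comp b).ker.vP_inj
      rw [map_zero]
      apply hi.2 k hk
      rw [← vP_kerMap (hf := hf) (hg := hg) hk, ha, map_zero]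

/-- (V3), the other direction -/
theorem FExt.of_iso' {d : ℤ} {i m : ℕ} {X X' : Sys S} (φ : PMap d X X' 0) (ho : φ.Onto)
    (hi : φ.Inj) (h : FExt d i m X) : FExt d i m X' :=
  FExt.of_iso (φ.inv ho hi) (φ.inv_onto ho hi) (φ.inv_inj ho hi) h

/-- (V5) adding a layer -/
theorem FExt.layer {d : ℤ} {i m : ℕ} {X Y Q : Sys S} (ι : PMap d X Y 0) (b : PMap d Y Q 0)
    {N : Type} [AddCommGroup N] [Module (RR p n) N] {gr : ℤ → ℤ → AddSubgroup N} (hb : b.Onto)
    (hgr : IsGr p n gr) (hQ : QQ p n d i N gr) (hT : Nonempty (FS Q gr d)) (hι : ι.Inj)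
    (hexA : ∀ (k : ℤ) (a : Y.A k), d ≤ k →
      (b.f (add_zero k) a = 0 ↔ ∃ c, ι.f (add_zero k) c = a))
    (hexP : ∀ (k : ℤ) (a : Y.Pi k), d ≤ k →
      (b.g (add_zero k) a = 0 ↔ ∃ c, ι.g (add_zero k) c = a))
    (h : FExt d i m X) : FExt d i (m + 1) Y := by
  refine ⟨Q, b, N, _, _, gr, hb, hgr, hQ, hT, ?_⟩
  let φ : PMap d X b.ker.sys 0 := b.ker.cod ι
    (fun {k k'} h hk a => by
      obtain rfl : k = k' := by omega
      exact (hexA k _ hk).2 ⟨a, rfl⟩)
    (fun {k k'} h hk a => by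
      obtain rfl : k = k' := by omega
      exact (hexP k _ hk).2 ⟨a, rfl⟩)
  have hφ : ∀ k, d ≤ k → ∀ a : X.A k, b.ker.vA k (φ.f (add_zero k) a) = ι.f (add_zero k) a :=
    fun k hk a => b.ker.vA_cod ι _ _ (add_zero k) hk a
  have hφP : ∀ k, d ≤ k → ∀ a : X.Pi k, b.ker.vP k (φ.g (add_zero k) a) = ι.g (add_zero k) a :=
    fun k hk a => b.ker.vP_cod ι _ _ (add_zero k) hk a
  refine FExt.of_iso' φ ⟨fun k hk x => ?_, fun k hk x => ?_⟩
    ⟨fun k hk a ha => ?_, fun k hk a ha => ?_⟩ h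
  · obtain ⟨c, hc⟩ := (hexA k _ hk).1 (b.ker.vA_mem hk x)
    exact ⟨c, b.ker.vA_inj (by rw [hφ k hk, hc])⟩
  · obtain ⟨c, hc⟩ := (hexP k _ hk).1 (b.ker.vP_mem hk x)
    exact ⟨c, b.ker.vP_inj (by rw [hφP k hk, hc])⟩
  · refine hι.1 k hk a ?_
    rw [← hφ k hk, ha, map_zero]
  · refine hι.2 k hk a ?_
    rw [← hφP k hk, ha, map_zero]

/-! ### `H¹` -/

section

variable {N : Type} [AddCommGroup N] [Module (RR p n) N] {gr : ℤ → ℤ → AddSubgroup N}

/-- the filtration of a module with a resolution is bounded -/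
theorem bot_of_QQ {d : ℤ} {i : ℕ} (h : QQ p n d i N gr) :
    ∃ s₀ : ℤ, ∀ k s, s < s₀ → gr k s = ⊥ := by
  cases i with
  | zero => exact ⟨0, fun k s _ => (QQ_zero d gr).1 h k s⟩
  | succ i =>
    obtain ⟨r, e, a, f, _, hf, _⟩ := (QQ_succ d i gr).1 h
    obtain ⟨s₀, hs⟩ := (Set.finite_range a).bddBelow
    refine ⟨s₀, fun k s hsk => (AddSubgroup.eq_bot_iff_forall _).2 fun y hy => ?_⟩
    obtain ⟨x, hx, rfl⟩ := hf.surj k s y hy
    have h0 : x = 0 := by
      funext j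
      have h1 : s₀ ≤ a j := hs ⟨j, rfl⟩
      exact gr_neg (mem_grFree.1 hx j) (by omega)
    rw [h0, map_zero]

omit [Fact p.Prime] in
theorem top_of_bot {Y : Sys S} {d : ℤ} (T : FS Y gr d) {s₀ : ℤ}
    (h : ∀ k s, s < s₀ → gr k s = ⊥) {k : ℤ} (hk : d ≤ k) : T.F s₀ k = ⊤ := by
  obtain ⟨s, hs⟩ := T.exh hk
  rcases le_or_gt s₀ s with h1 | h1
  · rw [eq_top_iff, ← hs]
    exact fun a ha => T.mono h1 ha
  · rw [eq_top_iff]
    intro a _
    have key : ∀ j : ℕ, s + j ≤ s₀ → a ∈ T.F (s + j) k := by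
      intro j
      induction j with
      | zero =>
        intro _
        rw [Nat.cast_zero, add_zero, hs]
        exact AddSubgroup.mem_top a
      | succ j ih =>
        intro hj
        have h2 := ih (by push_cast at hj; omega)
        have h3 : T.θ (s + j) k a = 0 := by
          funext E
          have h4 := T.θ_mem hk h2 E
          rw [h _ _ (by push_cast at hj; omega)] at h4
          exact h4
        have h5 := (T.θ_ker hk h2).1 h3
        rwa [show s + ((j + 1 : ℕ) : ℤ) = s + j + 1 by push_cast; ring]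
    have h6 := key (s₀ - s).toNat (by omega)
    rwa [show s + ((s₀ - s).toNat : ℤ) = s₀ by omega] at h6

end

/-- (V1) compatible families are solvable -/
theorem FExt.solve {d : ℤ} {i : ℕ} {J : Set ℕ} (hJ : J = Set.univ ∨ ∃ m' : ℕ, J = {l | l < m'}) :
    ∀ (m : ℕ) (Y : Sys S), FExt d i m Y → ∀ k, d ≤ k → ∀ ψ : ∀ l, Y.A (k + dd p n l),
    (∀ i ∈ J, ∀ l ∈ J, ∀ (k' : ℤ) (h : k + dd p n l + dd p n i = k')
      (h' : k + dd p n i + dd p n l = k'), Y.act h (ψ l) (S.x i) = Y.act h' (ψ i) (S.x l)) →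
    ∃ φ : Y.A k, ∀ l ∈ J, Y.act rfl φ (S.x l) = ψ l := by
  classical
  have hp : p.Prime := Fact.out
  intro m
  induction m with
  | zero =>
    intro Y h k hk ψ _
    refine ⟨0, fun l _ => ?_⟩
    have h1 := dd_nonneg' (p := p) (n := n) l
    rw [h.1 _ (by omega) (ψ l), map_zero, AddMonoidHom.zero_apply]
  | succ m ih =>
    intro Y h k hk ψ hψ
    obtain ⟨Q, b, N, _, _, gr, hb, hgr, hQ, ⟨T⟩, hK⟩ := h
    have hdd : ∀ l, d ≤ k + dd p n l := fun l => by
      have := dd_nonneg' (p := p) (n := n) l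
      omega
    have hdd' : ∀ {l i : ℕ} {k' : ℤ}, k + dd p n l + dd p n i = k' → d ≤ k' :=
      fun {l i k'} h => by
        have h1 := dd_nonneg' (p := p) (n := n) l
        have h2 := dd_nonneg' (p := p) (n := n) i
        omega
    have hV : Van p n J gr d := by
      obtain ⟨h1, h2⟩ := specVan_all hp.two_le d i N gr hgr hQ
      rcases hJ with rfl | ⟨m', rfl⟩
      · exact h2
      · exact h1 m'
    obtain ⟨s₀, hs₀⟩ := bot_of_QQ hQ
    have htop : ∀ {k' : ℤ}, d ≤ k' → ∀ a : Q.A k', a ∈ T.F s₀ k' := fun hk' a => by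
      rw [top_of_bot T hs₀ hk']
      exact AddSubgroup.mem_top a
    obtain ⟨φ, _, hφ⟩ := H769.specF1 hp.pos S Q N gr d T J hV k (s₀ - 1) hk
      (fun l => b.f (add_zero _) (ψ l)) (fun l _ => by
        rw [sub_add_cancel]
        exact htop (hdd l) _)
      (fun i hi l hl k' h h' => by
        rw [← b.act h (add_zero _) h (add_zero _) (ψ l) (S.x i) (hdd l) (hdd' h),
          hψ i hi l hl k' h h',
          b.act h' (add_zero _) h' (add_zero _) (ψ i) (S.x l) (hdd i) (hdd' h)])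
    obtain ⟨y, hy⟩ := hb.1 k hk φ
    have hby : ∀ l, b.f (add_zero _) (Y.act rfl y (S.x l)) = Q.act rfl φ (S.x l) := fun l => by
      rw [b.act rfl (add_zero k) rfl (add_zero _) y (S.x l) hk (hdd l), hy]
    have hker : ∀ l ∈ J, ψ l - Y.act rfl y (S.x l) ∈ b.ker.A (k + dd p n l) := fun l hl => by
      rw [PMap.mem_ker, map_sub, hby, hφ l hl, sub_self]
    obtain ⟨φ', hφ'⟩ := ih b.ker.sys hK k hk
      (fun l => if hl : l ∈ J then b.ker.el (hdd l) _ (hker l hl) else 0)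
      (fun i hi l hl k' h h' => by
        rw [dif_pos hi, dif_pos hl]
        apply b.ker.vA_inj
        rw [PSub.vA_act _ _ (hdd' h), PSub.vA_act _ _ (hdd' h), PSub.vA_el, PSub.vA_el]
        simp only [map_sub, AddMonoidHom.sub_apply]
        rw [hψ i hi l hl k' h h', Y.comm l i rfl h rfl h'])
    refine ⟨y + b.ker.vA k φ', fun l hl => ?_⟩
    have h1 := congrArg (b.ker.vA (k + dd p n l)) (hφ' l hl)
    rw [dif_pos hl, PSub.vA_el, PSub.vA_act _ _ (hdd l)] at h1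
    rw [map_add, AddMonoidHom.add_apply, h1]
    abel

/-! ### length `0`, monotonicity -/

omit [Fact p.Prime] in
theorem fs_zero {N : Type} [AddCommGroup N] [Module (RR p n) N] {gr : ℤ → ℤ → AddSubgroup N}
    {Y : Sys S} {d : ℤ} (T : FS Y gr d) (h0 : ∀ k s, gr k s = ⊥) {k : ℤ} (hk : d ≤ k)
    (a : Y.A k) : a = 0 := by
  refine T.sep hk a fun s => ?_
  rw [top_of_bot T (fun k' s' _ => h0 k' s') hk (s₀ := s)]
  exact AddSubgroup.mem_top a

/-- (V4) -/
theorem FExt.zero {d : ℤ} : ∀ (m : ℕ) (Y : Sys S), FExt d 0 m Y →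
    (∀ k, d ≤ k → ∀ a : Y.A k, a = 0) ∧ ∀ k, d ≤ k → ∀ a : Y.Pi k, a = 0 := by
  intro m
  induction m with
  | zero => exact fun Y h => h
  | succ m ih =>
    intro Y h
    obtain ⟨Q, b, N, _, _, gr, hb, hgr, hQ, ⟨T⟩, hK⟩ := h
    obtain ⟨h1, h2⟩ := ih _ hK
    have h3 : ∀ k, d ≤ k → ∀ a : Q.A k, a = 0 := fun k hk a =>
      fs_zero T ((QQ_zero d gr).1 hQ) hk a
    have h4 : ∀ k, d ≤ k → ∀ a : Q.Pi k, a = 0 := fun k hk a => by
      obtain ⟨a', rfl⟩ := T.ev_surj hk a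
      rw [h3 k hk a', map_zero]
    refine ⟨fun k hk a => ?_, fun k hk a => ?_⟩
    · rw [← b.ker.vA_el hk a (h3 k hk _), h1 k hk (b.ker.el hk a (h3 k hk _)), map_zero]
    · rw [← b.ker.vP_elP hk a (h4 k hk _), h2 k hk (b.ker.elP hk a (h4 k hk _)), map_zero]

omit [Fact p.Prime] in
theorem QQ_mono_one {d : ℤ} : ∀ {i : ℕ} {N : Type} [AddCommGroup N] [Module (RR p n) N]
    {gr : ℤ → ℤ → AddSubgroup N}, QQ p n d i N gr → QQ p n d (i + 1) N gr := by
  intro i
  induction i with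
  | zero =>
    intro N _ _ gr h
    rw [QQ_zero] at h
    refine (QQ_succ d 0 gr).2 ⟨0, Fin.elim0, Fin.elim0, 0, fun j => j.elim0, ⟨fun k s x _ => ?_,
      fun k s y hy => ?_⟩, ?_⟩
    · rw [LinearMap.zero_apply]
      exact (gr k s).zero_mem
    · rw [h k s, AddSubgroup.mem_bot] at hy
      exact ⟨0, AddSubgroup.zero_mem _, by rw [hy, map_zero]⟩
    · rw [QQ_zero]
      intro k s
      exact (AddSubgroup.eq_bot_iff_forall _).2 fun x _ => Subsingleton.elim _ _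
  | succ i ih =>
    intro N _ _ gr h
    obtain ⟨r, e, a, f, he, hf, hK⟩ := (QQ_succ d i gr).1 h
    exact (QQ_succ d (i + 1) gr).2 ⟨r, e, a, f, he, hf, ih hK⟩

omit [Fact p.Prime] in
theorem QQ_mono {d : ℤ} {i i' : ℕ} (hi : i ≤ i') {N : Type} [AddCommGroup N]
    [Module (RR p n) N] {gr : ℤ → ℤ → AddSubgroup N} (h : QQ p n d i N gr) :
    QQ p n d i' N gr := by
  induction hi with
  | refl => exact h
  | step _ ih => exact QQ_mono_one ih

theorem FExt.mono {d : ℤ} {i i' : ℕ} (hi : i ≤ i') : ∀ (m : ℕ) (Y : Sys S), FExt d i m Y →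
    FExt d i' m Y := by
  intro m
  induction m with
  | zero => exact fun Y h => h
  | succ m ih =>
    intro Y h
    obtain ⟨Q, b, N, _, _, gr, hb, hgr, hQ, hT, hK⟩ := h
    exact ⟨Q, b, N, _, _, gr, hb, hgr, QQ_mono hi hQ, hT, ih _ hK⟩

end Vale.Agent.P221.V
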