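import Vale.Agent.P221.V.Gens

/-!
# P221, part V: the interface for the main step and the end game

* `FExt.gens` : the main step in terms of systems;
* `HExt` : iterated extensions in all degrees; `HExt.fext`.
-/

open MvPolynomial

set_option linter.unusedSectionVars false

namespace Vale.Agent.P221.V

open Vale.Agent.P221.T

variable {p n : ℕ} {S : Src p n} [Fact p.Prime]

section

variable {B : Sys S} {TB : ∀ d, FS B (grR p n) d} {g : B.A 0}

section reindex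

variable {J : Type} [Fintype J] {r : ℕ} (σ : Fin r ≃ J) {e : J → ℤ} {d : ℤ} {Y : Sys S}
  (c : ∀ i, SysMap B Y (e (σ i)))

/-- reindexing -/
noncomputable def reMap : ∀ j, PMap d B Y (e j) :=
  σ.piCongrLeft (fun j => PMap d B Y (e j)) fun i => PMap.ofSys d (c i)

theorem reMap_apply (i : Fin r) : reMap (d := d) σ c (σ i) = PMap.ofSys d (c i) :=
  Equiv.piCongrLeft_apply_apply _ σ _ i

theorem reMap_f {k : ℤ} (w : (sumSys B e).A k) : (sumMap (reMap (d := d) σ c)).f (add_zero k) w =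
    ∑ i, (c i).f (sub_add_cancel k (e (σ i))) (w (σ i)) := by
  rw [sumMap_f, ← Equiv.sum_comp σ]
  refine Finset.sum_congr rfl fun i _ => ?_
  rw [reMap_apply]
  rfl

theorem reMap_g {k : ℤ} (w : (sumSys B e).Pi k) : (sumMap (reMap (d := d) σ c)).g (add_zero k) w =
    ∑ i, (c i).g (sub_add_cancel k (e (σ i))) (w (σ i)) := by
  rw [sumMap_g, ← Equiv.sum_comp σ]
  refine Finset.sum_congr rfl fun i _ => ?_
  rw [reMap_apply]
  rfl

end reindex

/-- (V2') the main step -/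
theorem FExt.gens (hB : Approx B TB g) (hx : ∀ l, S.x l ∈ S.F 1 _)
    (hθ : ∀ l, S.θ 1 _ (S.x l) = 0) {d : ℤ} {i m : ℕ} {Y : Sys S} (h : FExt d (i + 1) m Y) :
    ∃ (r : ℕ) (e : Fin r → ℤ) (α : ∀ j, Y.A (e j)), (∀ j, d ≤ e j) ∧
      (∀ j l, Y.act rfl (α j) (S.x l) = 0) ∧
      ∀ (X Z : Sys S) (ι : SysMap X Z 0) (b : SysMap Z Y 0) (jj : ∀ i, SysMap B Z (e i))
        (c : ∀ i, SysMap B Y (e i)),
        (∀ (k : ℤ) (z : Z.A k), ∃! w : ∀ i, B.A (k - e i), z = ∑ i, (jj i).f (by omega) (w i)) →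
        (∀ (k : ℤ) (z : Z.Pi k), ∃! w : ∀ i, B.Pi (k - e i),
          z = ∑ i, (jj i).g (by omega) (w i)) →
        (∀ (i) (k k' : ℤ) (h : k + e i = k') (w : B.A k),
          b.f (add_zero k') ((jj i).f h w) = (c i).f h w) →
        (∀ i, (c i).f (zero_add (e i)) g = α i) →
        (∀ (k : ℤ) (a : Z.A k), d ≤ k →
          (b.f (add_zero k) a = 0 ↔ ∃ c, ι.f (add_zero k) c = a)) →
        (∀ (k : ℤ) (a : Z.Pi k), d ≤ k →
          (b.g (add_zero k) a = 0 ↔ ∃ c, ι.g (add_zero k) c = a)) →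
        (∀ (k : ℤ) (c : X.A k), d ≤ k →
          (∀ a : Y.A (k + 1), ∃ a', b.f (add_zero (k + 1)) a' = a) →
            ι.f (add_zero k) c = 0 → c = 0) →
        (∀ (k : ℤ) (c : X.Pi k), d ≤ k →
          (∀ a : Y.Pi (k + 1), ∃ a', b.g (add_zero (k + 1)) a' = a) →
            ι.g (add_zero k) c = 0 → c = 0) →
        FExt d i m X ∧ (∀ (k : ℤ) (a : Y.A k), d ≤ k → ∃ a', b.f (add_zero k) a' = a) ∧
          (∀ (k : ℤ) (a : Y.Pi k), d ≤ k → ∃ a', b.g (add_zero k) a' = a) := by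
  obtain ⟨J, _, e, α, he, hα, hJ⟩ := gens_aux hB hx hθ m Y h
  let σ : Fin (Fintype.card J) ≃ J := (Fintype.equivFin J).symm
  refine ⟨Fintype.card J, fun i => e (σ i), fun i => α (σ i), fun i => he _, fun i l => hα _ l, ?_⟩
  intro X Z ι b jj c hZA hZP hbj hcg hexA hexP hinjA hinjP
  obtain ⟨ho, hK⟩ := hJ (reMap σ c) fun j => by
    obtain ⟨i, rfl⟩ := σ.surjective j
    rw [reMap_apply]
    exact hcg i
  -- the sum
  let ζ : PMap d (sumSys B e) Z 0 := sumMap (reMap σ jj)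
  have hζ : ζ.Onto := by
    refine ⟨fun k _ z => ?_, fun k _ z => ?_⟩
    · obtain ⟨w, hw, -⟩ := hZA k z
      refine ⟨σ.piCongrLeft (fun j => B.A (k - e j)) w, (reMap_f σ jj _).trans ?_⟩
      rw [hw]
      refine Finset.sum_congr rfl fun i _ => ?_
      rw [Equiv.piCongrLeft_apply_apply]
    · obtain ⟨w, hw, -⟩ := hZP k z
      refine ⟨σ.piCongrLeft (fun j => B.Pi (k - e j)) w, (reMap_g σ jj _).trans ?_⟩
      rw [hw]
      refine Finset.sum_congr rfl fun i _ => ?_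
      rw [Equiv.piCongrLeft_apply_apply]
  have hζi : ζ.Inj := by
    refine ⟨fun k _ w hw => ?_, fun k _ w hw => ?_⟩
    · obtain ⟨w', _, hw'⟩ := hZA k 0
      have h1 : (fun i => w (σ i)) = w' := hw' _ (hw.symm.trans (reMap_f σ jj w))
      have h2 : (fun i => 0 : ∀ i, B.A (k - e (σ i))) = w' := hw' _ (by
        refine (Finset.sum_eq_zero fun i _ => ?_).symm
        exact map_zero _)
      funext j
      obtain ⟨i, rfl⟩ := σ.surjective j
      exact congrFun (h1.trans h2.symm) i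
    · obtain ⟨w', _, hw'⟩ := hZP k 0
      have h1 : (fun i => w (σ i)) = w' := hw' _ (hw.symm.trans (reMap_g σ jj w))
      have h2 : (fun i => 0 : ∀ i, B.Pi (k - e (σ i))) = w' := hw' _ (by
        refine (Finset.sum_eq_zero fun i _ => ?_).symm
        exact map_zero _)
      funext j
      obtain ⟨i, rfl⟩ := σ.surjective j
      exact congrFun (h1.trans h2.symm) i
  have hbjP : ∀ (i) (k k' : ℤ) (h : k + e (σ i) = k') (w : B.Pi k),
      b.g (add_zero k') ((jj i).g h w) = (c i).g h w := by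
    intro i k k' h w
    obtain ⟨a, rfl⟩ := (TB k).ev_surj le_rfl w
    rw [← (c i).ev h a, ← (jj i).ev h a, ← b.ev (add_zero k'), hbj]
  have hbζ : ∀ {k : ℤ} (w : (sumSys B e).A k),
      (sumMap (reMap (d := d) σ c)).f (add_zero k) w = b.f (add_zero k) (ζ.f (add_zero k) w) := by
    intro k w
    have h1 : ζ.f (add_zero k) w = ∑ i, (jj i).f (sub_add_cancel k (e (σ i))) (w (σ i)) :=
      reMap_f σ jj w
    rw [reMap_f, h1, map_sum]
    exact Finset.sum_congr rfl fun i _ => (hbj i _ _ _ _).symm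
  have hbζP : ∀ {k : ℤ} (w : (sumSys B e).Pi k),
      (sumMap (reMap (d := d) σ c)).g (add_zero k) w = b.g (add_zero k) (ζ.g (add_zero k) w) := by
    intro k w
    have h1 : ζ.g (add_zero k) w = ∑ i, (jj i).g (sub_add_cancel k (e (σ i))) (w (σ i)) :=
      reMap_g σ jj w
    rw [reMap_g, h1, map_sum]
    exact Finset.sum_congr rfl fun i _ => (hbjP i _ _ _ _).symm
  have hsA : ∀ (k : ℤ) (a : Y.A k), d ≤ k → ∃ a', b.f (add_zero k) a' = a := fun k a hk => by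
    obtain ⟨w, hw⟩ := ho.1 k hk a
    exact ⟨_, (hbζ w).symm.trans hw⟩
  have hsP : ∀ (k : ℤ) (a : Y.Pi k), d ≤ k → ∃ a', b.g (add_zero k) a' = a := fun k a hk => by
    obtain ⟨w, hw⟩ := ho.2 k hk a
    exact ⟨_, (hbζP w).symm.trans hw⟩
  refine ⟨?_, hsA, hsP⟩
  -- the kernel
  have hφA : ∀ {k : ℤ}, d ≤ k → ∀ a : X.A k,
      (sumMap (reMap (d := d) σ c)).f (add_zero k) (ζ.invA hζ hζi k (ι.f (add_zero k) a)) = 0 :=
    fun {k} hk a => by
      rw [hbζ, ζ.invA_spec hζ hζi hk]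
      exact (hexA k _ hk).2 ⟨a, rfl⟩
  have hφP : ∀ {k : ℤ}, d ≤ k → ∀ a : X.Pi k,
      (sumMap (reMap (d := d) σ c)).g (add_zero k) (ζ.invP hζ hζi k (ι.g (add_zero k) a)) = 0 :=
    fun {k} hk a => by
      rw [hbζP, ζ.invP_spec hζ hζi hk]
      exact (hexP k _ hk).2 ⟨a, rfl⟩
  let ψ : PMap d X (sumSys B e) 0 := (PMap.ofSys d ι).comp (ζ.inv hζ hζi)
  have hψf : ∀ {k k' : ℤ} (h : k + 0 = k'), d ≤ k' → ∀ a : X.A k,
      ψ.f h a ∈ (sumMap (reMap (d := d) σ c)).ker.A k' := fun {k k'} h hk a => by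
    obtain rfl : k = k' := by omega
    exact hφA hk a
  have hψg : ∀ {k k' : ℤ} (h : k + 0 = k'), d ≤ k' → ∀ a : X.Pi k,
      ψ.g h a ∈ (sumMap (reMap (d := d) σ c)).ker.Pi k' := fun {k k'} h hk a => by
    obtain rfl : k = k' := by omega
    exact hφP hk a
  let φ : PMap d X (sumMap (reMap (d := d) σ c)).ker.sys 0 :=
    (sumMap (reMap (d := d) σ c)).ker.cod ψ hψf hψg
  have hv : ∀ {k : ℤ}, d ≤ k → ∀ a : X.A k,
      ζ.f (add_zero k) ((sumMap (reMap (d := d) σ c)).ker.vA k (φ.f (add_zero k) a)) =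
        ι.f (add_zero k) a := fun {k} hk a => by
    have h1 : (sumMap (reMap (d := d) σ c)).ker.vA k (φ.f (add_zero k) a) =
        ζ.invA hζ hζi k (ι.f (add_zero k) a) :=
      (sumMap (reMap (d := d) σ c)).ker.vA_cod ψ hψf hψg (add_zero k) hk a
    rw [h1, ζ.invA_spec hζ hζi hk]
  have hvP : ∀ {k : ℤ}, d ≤ k → ∀ a : X.Pi k,
      ζ.g (add_zero k) ((sumMap (reMap (d := d) σ c)).ker.vP k (φ.g (add_zero k) a)) =
        ι.g (add_zero k) a := fun {k} hk a => by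
    have h1 : (sumMap (reMap (d := d) σ c)).ker.vP k (φ.g (add_zero k) a) =
        ζ.invP hζ hζi k (ι.g (add_zero k) a) :=
      (sumMap (reMap (d := d) σ c)).ker.vP_cod ψ hψf hψg (add_zero k) hk a
    rw [h1, ζ.invP_spec hζ hζi hk]
  refine FExt.of_iso φ ⟨fun k hk w => ?_, fun k hk w => ?_⟩
    ⟨fun k hk a ha => ?_, fun k hk a ha => ?_⟩ hK
  · have h1 : b.f (add_zero k) (ζ.f (add_zero k)
        ((sumMap (reMap (d := d) σ c)).ker.vA k w)) = 0 := by
      rw [← hbζ]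
      exact b_vA _ hk w
    obtain ⟨x, hx⟩ := (hexA k _ hk).1 h1
    refine ⟨x, PSub.vA_inj _ ?_⟩
    apply (ζ.bijA hζ hζi hk).1
    rw [hv hk, hx]
  · have h1 : b.g (add_zero k) (ζ.g (add_zero k)
        ((sumMap (reMap (d := d) σ c)).ker.vP k w)) = 0 := by
      rw [← hbζP]
      exact b_vP _ hk w
    obtain ⟨x, hx⟩ := (hexP k _ hk).1 h1
    refine ⟨x, PSub.vP_inj _ ?_⟩
    apply (ζ.bijP hζ hζi hk).1
    rw [hvP hk, hx]
  · refine hinjA k a hk (fun y => hsA (k + 1) y (by omega)) ?_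
    rw [← hv hk, ha, map_zero, map_zero]
  · refine hinjP k a hk (fun y => hsP (k + 1) y (by omega)) ?_
    rw [← hvP hk, ha, map_zero, map_zero]

end

/-! ### extensions in all degrees -/

/-- an iterated extension of systems `Q`, `𝒬 Q`, in all degrees -/
inductive HExt (𝒬 : Sys S → Prop) : ℕ → Sys S → Prop
  | zero {Y : Sys S} : (∀ k (a : Y.A k), a = 0) → (∀ k (a : Y.Pi k), a = 0) → HExt 𝒬 0 Y
  | succ {m : ℕ} {X Y Q : Sys S} (ι : SysMap X Y 0) (b : SysMap Y Q 0) : 𝒬 Q →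
      (∀ k (a : Q.A k), ∃ y, b.f (add_zero k) y = a) →
      (∀ k (a : Q.Pi k), ∃ y, b.g (add_zero k) y = a) →
      (∀ k (c : X.A k), ι.f (add_zero k) c = 0 → c = 0) →
      (∀ k (c : X.Pi k), ι.g (add_zero k) c = 0 → c = 0) →
      (∀ k (a : Y.A k), b.f (add_zero k) a = 0 ↔ ∃ c, ι.f (add_zero k) c = a) →
      (∀ k (a : Y.Pi k), b.g (add_zero k) a = 0 ↔ ∃ c, ι.g (add_zero k) c = a) →
      HExt 𝒬 m X → HExt 𝒬 (m + 1) Y

theorem inF_trunc' {N : Type} [AddCommGroup N] [Module (RR p n) N]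
    {gr : ℤ → ℤ → AddSubgroup N} {d k s : ℤ} (hk : d ≤ k) (ζ : Fnl N) :
    InF p (trunc d gr) k s ζ ↔ InF p gr k s ζ := by
  refine forall_congr' fun E => ?_
  have h1 : 0 ≤ dT p E := by
    unfold dT
    rw [Finsupp.weight_apply]
    refine Finset.sum_nonneg fun i _ => ?_
    have h2 := sV_nonneg (p := p) (Fact.out : p.Prime).one_lt.le (i + 1)
    dsimp only
    rw [nsmul_eq_mul]
    exact mul_nonneg (Nat.cast_nonneg _) h2
  unfold trunc
  rw [if_pos (by omega)]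

/-- a filtered system in degrees `≥ d` only involves the truncation of `gr` -/
def fsTrunc {Y : Sys S} {N : Type} [AddCommGroup N] [Module (RR p n) N]
    {gr : ℤ → ℤ → AddSubgroup N} {d : ℤ} (T : FS Y gr d) : FS Y (trunc d gr) d where
  F := T.F
  mono := T.mono
  exh := T.exh
  sep := T.sep
  cpl := T.cpl
  p_mem := T.p_mem
  θ := T.θ
  θ_add := T.θ_add
  θ_mem hk ha := (inF_trunc' (p := p) (n := n) hk _).2 (T.θ_mem hk ha)
  θ_surj {_ _ ζ} hk hζ := T.θ_surj hk ((inF_trunc' (p := p) (n := n) hk ζ).1 hζ)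
  θ_ker := T.θ_ker
  x_mem := T.x_mem
  θ_x := T.θ_x
  act_mem := T.act_mem
  θ_act := T.θ_act
  ev_surj := T.ev_surj
  ev_lift := T.ev_lift
  ev_zero := T.ev_zero
  ev_sep := T.ev_sep

/-- (V5) -/
theorem HExt.fext {𝒬 : Sys S → Prop}
    (h𝒬 : ∀ Q, 𝒬 Q → ∃ (N : Type) (_ : AddCommGroup N) (_ : Module (RR p n) N)
      (gr : ℤ → ℤ → AddSubgroup N), IsGr p n gr ∧ FG (p := p) (n := n) gr ∧
        ∀ d, Nonempty (FS Q gr d)) {m : ℕ} {Y : Sys S} (h : HExt 𝒬 m Y) :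
    ∃ d₀ : ℤ, ∀ d, d₀ ≤ d → ∃ i, FExt d i m Y := by
  induction h with
  | zero hA hP => exact ⟨0, fun d _ => ⟨0, fun k _ a => hA k a, fun k _ a => hP k a⟩⟩
  | succ ι b hQ hbA hbP hιA hιP hexA hexP _ ih =>
    obtain ⟨N, _, _, gr, hgr, hFG, hFS⟩ := h𝒬 _ hQ
    obtain ⟨d₁, h₁⟩ := (H136.specRes p n).1 N gr hgr hFG
    obtain ⟨d₂, h₂⟩ := ih
    refine ⟨max d₁ d₂, fun d hd => ?_⟩
    obtain ⟨i₁, hi₁⟩ := h₁ d (le_trans (le_max_left _ _) hd)
    obtain ⟨i₂, hi₂⟩ := h₂ d (le_trans (le_max_right _ _) hd)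
    obtain ⟨T⟩ := hFS d
    exact ⟨max i₁ i₂, FExt.layer (PMap.ofSys d ι) (PMap.ofSys d b)
      ⟨fun k _ a => hbA k a, fun k _ a => hbP k a⟩
      (H136.isGr_trunc (Fact.out : p.Prime).one_lt.le hgr d) (QQ_mono (le_max_left _ _) hi₁)
      ⟨fsTrunc T⟩ ⟨fun k _ a => hιA k a, fun k _ a => hιP k a⟩ (fun k a _ => hexA k a)
      (fun k a _ => hexP k a) (FExt.mono (le_max_right _ _) _ _ hi₂)⟩

end Vale.Agent.P221.V
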