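import Vale.Agent.P221.V.Def
import Vale.Agent.P221.T.H769.F3

/-!
# P221, part V: (F3) for maps in degrees `≥ d`
-/

open MvPolynomial

namespace Vale.Agent.P221.V

open Vale.Agent.P221.T

variable {p n : ℕ} {S : Src p n}

section

variable {X Z Y : Sys S} {N N' : Type} [AddCommGroup N] [Module (RR p n) N]
    [AddCommGroup N'] [Module (RR p n) N'] {gr' : ℤ → ℤ → AddSubgroup N'}
    {gr : ℤ → ℤ → AddSubgroup N} {d : ℤ} (T' : FS Z gr' d) (T : FS Y gr d)
    (f : N' →ₗ[RR p n] N) (b : PMap d Z Y 0)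

/-- strict surjectivity, together with the version for the kernel of `ev` -/
theorem strict (hf : IsSurj gr' gr f)
    (hb : ∀ (k s : ℤ) (a : Z.A k), d ≤ k → a ∈ T'.F s k → b.f (add_zero k) a ∈ T.F s k ∧
      T.θ s k (b.f (add_zero k) a) = fun E => f (T'.θ s k a E))
    {k s : ℤ} (hk : d ≤ k) {y : Y.A k} (hy : y ∈ T.F s k) :
    ∃ z ∈ T'.F s k, b.f (add_zero k) z = y ∧ (Y.ev k y = 0 → Z.ev k z = 0) := by
  have step : ∀ (m : ℕ) (z : Z.A k), z ∈ T'.F s k →
      (y - b.f (add_zero k) z ∈ T.F (s + m) k ∧ (Y.ev k y = 0 → Z.ev k z = 0)) →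
      ∃ c ∈ T'.F (s + m) k, y - b.f (add_zero k) (z + c) ∈ T.F (s + (m + 1 : ℕ)) k ∧
        (Y.ev k y = 0 → Z.ev k (z + c) = 0) := by
    rintro m z hz ⟨h1, h2⟩
    obtain ⟨ζ', hζ1, hζ2, hζ3⟩ := H769.exists_lift_fnl f hf (T.θ_mem hk h1)
    obtain ⟨c, hc, hcθ⟩ := T'.θ_surj hk hζ1
    have main : ∀ c' ∈ T'.F (s + m) k, T'.θ (s + m) k c' = ζ' →
        y - b.f (add_zero k) (z + c') ∈ T.F (s + (m + 1 : ℕ)) k := by
      intro c' hc' hcθ'
      obtain ⟨h3, h4⟩ := hb k (s + m) c' hk hc'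
      have h5 : y - b.f (add_zero k) (z + c') =
          (y - b.f (add_zero k) z) - b.f (add_zero k) c' := by
        rw [map_add]
        abel
      rw [h5, show s + ((m + 1 : ℕ) : ℤ) = s + m + 1 by push_cast; ring,
        ← T.θ_ker hk ((T.F _ _).sub_mem h1 h3), H769.θ_sub T hk h1 h3, h4, hcθ', hζ2, sub_self]
    by_cases hy0 : Y.ev k y = 0
    · have h6 : Y.ev k (y - b.f (add_zero k) z) = 0 := by
        rw [map_sub, hy0, b.ev _ _ hk, h2 hy0, map_zero, sub_zero]
      have h7 : T'.θ (s + m) k c 0 = 0 := by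
        rw [hcθ]
        exact hζ3 (T.ev_zero hk h1 h6)
      obtain ⟨e, he, he'⟩ := T'.ev_lift hk hc h7
      have he2 : e ∈ T'.F (s + m) k := T'.mono (by linarith) he
      have hce : c - e ∈ T'.F (s + m) k := (T'.F _ _).sub_mem hc he2
      refine ⟨c - e, hce, main _ hce ?_, fun _ => ?_⟩
      · rw [H769.θ_sub T' hk hc he2, (T'.θ_ker hk he2).2 he, sub_zero, hcθ]
      · rw [map_add, h2 hy0, map_sub, he', sub_self, add_zero]
    · exact ⟨c, hc, main c hc hcθ, fun h => absurd h hy0⟩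
  obtain ⟨z, hz, hlim⟩ := H769.exists_limit T' hk s
    (fun m z => y - b.f (add_zero k) z ∈ T.F (s + m) k ∧ (Y.ev k y = 0 → Z.ev k z = 0))
    ⟨by simpa using hy, fun _ => map_zero _⟩ step
  refine ⟨z, hz, ?_, fun hy0 => T'.ev_sep hk _ fun s' => ?_⟩
  · refine (sub_eq_zero.1 (H769.eq_zero_of_nat T hk s fun m => ?_)).symm
    obtain ⟨a, _, h1, h2⟩ := hlim m
    have h3 := (hb k (s + m) (z - a) hk h2).1
    have h4 : y - b.f (add_zero k) z = (y - b.f (add_zero k) a) - b.f (add_zero k) (z - a) := by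
      rw [map_sub]
      abel
    rw [h4]
    exact (T.F _ _).sub_mem h1.1 h3
  · obtain ⟨a, _, h1, h2⟩ := hlim (s' - s).toNat
    refine ⟨z - a, T'.mono ?_ h2, ?_⟩
    · have := Int.self_le_toNat (s' - s)
      linarith
    · rw [map_sub, h1.2 hy0, sub_zero]

/-- surjectivity -/
theorem onto_of_strict (hf : IsSurj gr' gr f)
    (hb : ∀ (k s : ℤ) (a : Z.A k), d ≤ k → a ∈ T'.F s k → b.f (add_zero k) a ∈ T.F s k ∧
      T.θ s k (b.f (add_zero k) a) = fun E => f (T'.θ s k a E)) : b.Onto := by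
  have hsA : ∀ (k : ℤ), d ≤ k → ∀ a : Y.A k, ∃ a', b.f (add_zero k) a' = a := by
    intro k hk a
    obtain ⟨s, hs⟩ := T.exh hk
    obtain ⟨z, _, hz, _⟩ := strict T' T f b hf hb (s := s) hk (y := a) (by rw [hs]; trivial)
    exact ⟨z, hz⟩
  refine ⟨hsA, fun k hk a => ?_⟩
  obtain ⟨y, hy⟩ := T.ev_surj hk a
  obtain ⟨z, hz⟩ := hsA k hk y
  exact ⟨Z.ev k z, by rw [← b.ev _ _ hk, hz, hy]⟩

variable (i : PMap d X Z 0)

/-- (F3), unbundled -/
theorem fibre (hp : 0 < p) (hf : IsSurj gr' gr f)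
    (hb : ∀ (k s : ℤ) (a : Z.A k), d ≤ k → a ∈ T'.F s k → b.f (add_zero k) a ∈ T.F s k ∧
      T.θ s k (b.f (add_zero k) a) = fun E => f (T'.θ s k a E))
    (hexA : ∀ (k : ℤ) (a : Z.A k), d ≤ k →
      (b.f (add_zero k) a = 0 ↔ ∃ c, i.f (add_zero k) c = a))
    (hexP : ∀ (k : ℤ) (a : Z.Pi k), d ≤ k →
      (b.g (add_zero k) a = 0 ↔ ∃ c, i.g (add_zero k) c = a))
    (hi : i.Inj) : Nonempty (FS X (kerGr gr' f) d) := by
  have hdd : ∀ {k : ℤ} (l : ℕ) {k' : ℤ}, k + dd p n l = k' → d ≤ k → d ≤ k' :=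
    fun l _ h hk => by linarith [H769.dd_nonneg hp n l]
  have hiA : ∀ (k : ℤ) (c : X.A k), d ≤ k → i.f (add_zero k) c = 0 → c = 0 := fun k c hk hc =>
    hi.1 k hk c hc
  have hiP : ∀ (k : ℤ) (c : X.Pi k), d ≤ k → i.g (add_zero k) c = 0 → c = 0 := fun k c hk hc =>
    hi.2 k hk c hc
  have hbi : ∀ (k : ℤ) (c : X.A k), d ≤ k → b.f (add_zero k) (i.f (add_zero k) c) = 0 :=
    fun k c hk => (hexA k _ hk).2 ⟨c, rfl⟩
  have hbiP : ∀ (k : ℤ) (c : X.Pi k), d ≤ k → b.g (add_zero k) (i.g (add_zero k) c) = 0 :=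
    fun k c hk => (hexP k _ hk).2 ⟨c, rfl⟩
  have hact : ∀ {k m k' : ℤ} (h : k + m = k') (c : X.A k) (γ : S.E m), d ≤ k → d ≤ k' →
      i.f (add_zero k') (X.act h c γ) = Z.act h (i.f (add_zero k) c) γ :=
    fun h c γ hk hk' => i.act h (add_zero _) h (add_zero _) c γ hk hk'
  have hev : ∀ (k : ℤ) (c : X.A k), d ≤ k →
      Z.ev k (i.f (add_zero k) c) = i.g (add_zero k) (X.ev k c) :=
    fun k c hk => i.ev (add_zero k) c hk
  -- elements of the kernel of `b`
  have hlift : ∀ {k s : ℤ} (hk : d ≤ k) {z : Z.A k}, z ∈ T'.F s k → Y.ev k (b.f (add_zero k) z) = 0 →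
      ∃ c : X.A k, ∃ e ∈ T'.F s k, i.f (add_zero k) c = z - e ∧ Z.ev k e = 0 := by
    intro k s hk z hz h0
    obtain ⟨e, he, he1, he2⟩ := strict T' T f b hf hb hk (hb k s z hk hz).1
    obtain ⟨c, hc⟩ := (hexA k (z - e) hk).1 (by rw [map_sub, he1, sub_self])
    exact ⟨c, e, he, hc, he2 h0⟩
  refine ⟨
    { F := fun s k => (T'.F s k).comap (i.f (add_zero k))
      mono := fun {s s' k} h a ha => T'.mono h ha
      exh := fun {k} hk => by
        obtain ⟨s, hs⟩ := T'.exh hk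
        exact ⟨s, by rw [hs, AddSubgroup.comap_top]⟩
      sep := fun {k} hk a ha => hiA k a hk (T'.sep hk _ ha)
      cpl := fun {k} hk s a ha => by
        obtain ⟨z, hz⟩ := T'.cpl hk s (fun j => i.f (add_zero k) (a j)) ha
        have hbz : b.f (add_zero k) z = 0 := by
          refine H769.eq_zero_of_nat T hk s fun m => ?_
          have h1 := (hb k (s + m) _ hk (hz m)).1
          rw [map_sub, map_sum, Finset.sum_eq_zero (fun j _ => hbi k (a j) hk), sub_zero] at h1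
          exact h1
        obtain ⟨c, hc⟩ := (hexA k z hk).1 hbz
        refine ⟨c, fun m => ?_⟩
        rw [AddSubgroup.mem_comap, map_sub, map_sum, hc]
        exact hz m
      p_mem := fun {s k a} ha => by
        rw [AddSubgroup.mem_comap, map_nsmul]
        exact T'.p_mem ha
      θ := fun s k a => T'.θ s k (i.f (add_zero k) a)
      θ_add := fun {s k a b} hk ha hb => by
        rw [map_add]
        exact T'.θ_add hk ha hb
      θ_mem := fun {s k a} hk ha E => by
        refine ⟨T'.θ_mem hk ha E, ?_⟩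
        have h1 := (hb k s _ hk ha).2
        rw [hbi k a hk, H769.θ_zero T hk] at h1
        exact (congrFun h1 E).symm
      θ_surj := fun {s k ζ} hk hζ => by
        obtain ⟨z, hz, hzθ⟩ := T'.θ_surj hk (fun E => (hζ E).1)
        obtain ⟨h1, h2⟩ := hb k s z hk hz
        have h3 : b.f (add_zero k) z ∈ T.F (s + 1) k := by
          rw [← T.θ_ker hk h1, h2, hzθ]
          funext E
          exact (hζ E).2
        obtain ⟨e, he, he1, _⟩ := strict T' T f b hf hb hk h3
        have he' : e ∈ T'.F s k := T'.mono (by linarith) he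
        obtain ⟨c, hc⟩ := (hexA k (z - e) hk).1 (by rw [map_sub, he1, sub_self])
        refine ⟨c, ?_, ?_⟩
        · rw [AddSubgroup.mem_comap, hc]
          exact (T'.F _ _).sub_mem hz he'
        · rw [hc, H769.θ_sub T' hk hz he', (T'.θ_ker hk he').2 he, sub_zero, hzθ]
      θ_ker := fun {s k a} hk ha => T'.θ_ker hk ha
      x_mem := fun l {s k k'} h {a} hk ha => by
        rw [AddSubgroup.mem_comap, hact _ _ _ hk (hdd l h hk)]
        exact T'.x_mem l h hk ha
      θ_x := fun l {s k k'} h {a} hk ha => by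
        rw [hact _ _ _ hk (hdd l h hk)]
        exact T'.θ_x l h hk ha
      act_mem := fun {s k t m k'} h {a γ y} hk hk' ha hθ hγ => by
        rw [AddSubgroup.mem_comap, hact _ _ _ hk hk']
        exact T'.act_mem h hk hk' ha hθ hγ
      θ_act := fun {s k t m k'} h {a γ y} hk hk' ha hθ hγ => by
        rw [hact _ _ _ hk hk']
        exact T'.θ_act h hk hk' ha hθ hγ
      ev_surj := fun {k} hk x => by
        obtain ⟨z, hz⟩ := T'.ev_surj hk (i.g (add_zero k) x)
        obtain ⟨s, hs⟩ := T'.exh hk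
        have h0 : Y.ev k (b.f (add_zero k) z) = 0 := by rw [b.ev _ _ hk, hz, hbiP k x hk]
        obtain ⟨c, e, _, hc, he⟩ := hlift hk (s := s) (z := z) (by rw [hs]; trivial) h0
        refine ⟨c, sub_eq_zero.1 (hiP k _ hk ?_)⟩
        rw [map_sub, ← hev k c hk, hc, map_sub, he, sub_zero, hz, sub_self]
      ev_lift := fun {s k a} hk ha h0 => by
        obtain ⟨z, hz, hz'⟩ := T'.ev_lift hk ha h0
        have h1 : Y.ev k (b.f (add_zero k) z) = 0 := by
          rw [b.ev _ _ hk, hz', hev k a hk, hbiP k _ hk]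
        obtain ⟨c, e, he1, hc, he⟩ := hlift hk hz h1
        refine ⟨c, ?_, sub_eq_zero.1 (hiP k _ hk ?_)⟩
        · rw [AddSubgroup.mem_comap, hc]
          exact (T'.F _ _).sub_mem hz he1
        · rw [map_sub, ← hev k c hk, ← hev k a hk, hc, map_sub, he, sub_zero, hz', sub_self]
      ev_zero := fun {s k a} hk ha h0 => by
        refine T'.ev_zero hk ha ?_
        rw [hev k a hk, h0, map_zero]
      ev_sep := fun {k} hk x hx => by
        refine hiP k x hk (T'.ev_sep hk _ fun s => ?_)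
        obtain ⟨a, ha, hax⟩ := hx s
        exact ⟨i.f (add_zero k) a, ha, by rw [hev k a hk, hax]⟩ }⟩

/-- the kernel of a map given by a surjection of graded modules -/
theorem fs_ker [Fact p.Prime] (hf : IsSurj gr' gr f)
    (hb : ∀ (k s : ℤ) (a : Z.A k), d ≤ k → a ∈ T'.F s k → b.f (add_zero k) a ∈ T.F s k ∧
      T.θ s k (b.f (add_zero k) a) = fun E => f (T'.θ s k a E)) :
    Nonempty (FS b.ker.sys (kerGr gr' f) d) := by
  refine fibre T' T f b b.ker.incl (Fact.out : p.Prime).pos hf hb (fun k a hk => ?_)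
    (fun k a hk => ?_) b.ker.incl_inj
  · constructor
    · intro h
      exact ⟨b.ker.el hk a h, rfl⟩
    · rintro ⟨c, rfl⟩
      exact b.ker.vA_mem hk c
  · constructor
    · intro h
      exact ⟨b.ker.elP hk a h, rfl⟩
    · rintro ⟨c, rfl⟩
      exact b.ker.vP_mem hk c

end

end Vale.Agent.P221.V
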