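import Vale.Agent.P221.V.Def
import Vale.Agent.P221.T.H746.F4

/-!
# P221, part V: (F4) for maps in degrees `≥ d`, and lemma D
-/

open MvPolynomial

namespace Vale.Agent.P221.V

open Vale.Agent.P221.T H746

variable {p n : ℕ} {S : Src p n}

section sum

variable {B : Sys S} {r : ℕ} (e : Fin r → ℤ) {d d' : ℤ} (T0 : FS B (grR p n) d')
  (hd : ∀ i (k : ℤ), d ≤ k → d' ≤ k - e i) (a : Fin r → ℤ)

theorem sum_add_apply {J : Type} {e : J → ℤ} {k : ℤ} (z z' : (sumSys B e).A k) (i : J) :
    (z + z') i = z i + z' i := rfl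

theorem sum_sub_apply {J : Type} {e : J → ℤ} {k : ℤ} (z z' : (sumSys B e).A k) (i : J) :
    (z - z') i = z i - z' i := rfl

theorem sum_sum_apply {J : Type} {e : J → ℤ} {k : ℤ} {I : Type} (t : Finset I)
    (z : I → (sumSys B e).A k) (i : J) : (∑ l ∈ t, z l) i = ∑ l ∈ t, z l i :=
  Finset.sum_apply (M := fun i => B.A (k - e i)) i t z

/-- **the filtration of the sum** -/
noncomputable def fsSum : FS (sumSys B e) (grFree p n e a) d where
  F s k :=
    { carrier := {z | ∀ i, z i ∈ T0.F (s - a i) (k - e i)}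
      add_mem' := fun {x y} hx hy i => AddSubgroup.add_mem _ (hx i) (hy i)
      zero_mem' := fun i => AddSubgroup.zero_mem _
      neg_mem' := fun {x} hx i => AddSubgroup.neg_mem _ (hx i) }
  mono h z hz i := T0.mono (by omega) (hz i)
  exh {k} hk := by
    choose t ht using fun i => T0.exh (hd i k hk)
    obtain ⟨m, hm⟩ := exists_lb fun i => t i + a i
    refine ⟨m, ?_⟩
    rw [eq_top_iff]
    intro z _ i
    have h1 : z i ∈ T0.F (t i) (k - e i) := by
      rw [ht]
      exact AddSubgroup.mem_top _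
    exact T0.mono (by have := hm i; omega) h1
  sep {k} hk z hz := by
    funext i
    refine T0.sep (hd i k hk) _ fun s => ?_
    exact mem_cast T0 (by ring) (hz (s + a i) i)
  cpl {k} hk s z hz := by
    have h1 : ∀ i, ∃ b : B.A (k - e i), ∀ m : ℕ,
        b - ∑ l ∈ Finset.range m, z l i ∈ T0.F (s - a i + m) (k - e i) := fun i =>
      T0.cpl (hd i k hk) (s - a i) (fun l => z l i)
        (fun l => mem_cast T0 (by ring) (hz l i))
    choose b hb using h1
    let b' : (sumSys B e).A k := b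
    refine ⟨b', fun m i => ?_⟩
    have h2 : (b' - ∑ l ∈ Finset.range m, z l) i = b i - ∑ l ∈ Finset.range m, z l i :=
      (sum_sub_apply b' _ i).trans (congrArg (b i - ·) (sum_sum_apply _ z i))
    have h3 := mem_cast T0 (show s - a i + m = s + m - a i by ring) (hb i m)
    rw [← h2] at h3
    exact h3
  p_mem {s k z} hz i := mem_cast T0 (by ring) (T0.p_mem (hz i))
  θ s k z E i := T0.θ (s - a i) (k - e i) (z i) E
  θ_add {s k x y} hk hx hy := by
    funext E i
    exact congrFun (T0.θ_add (hd i k hk) (hx i) (hy i)) E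
  θ_mem {s k z} hk hz E i := grR_cast (by ring) rfl (T0.θ_mem (hd i k hk) (hz i) E)
  θ_surj {s k ζ} hk hζ := by
    have h1 : ∀ i, ∃ w ∈ T0.F (s - a i) (k - e i), T0.θ (s - a i) (k - e i) w =
        fun E => ζ E i := fun i => T0.θ_surj (hd i k hk) fun E => grR_cast (by ring) rfl (hζ E i)
    choose w hw hwθ using h1
    refine ⟨w, fun i => hw i, ?_⟩
    funext E i
    rw [hwθ]
  θ_ker {s k z} hk hz := by
    have h1 : ∀ i, (T0.θ (s - a i) (k - e i) (z i) = 0 ↔
        z i ∈ T0.F (s + 1 - a i) (k - e i)) := fun i => by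
      rw [T0.θ_ker (hd i k hk) (hz i)]
      exact ⟨mem_cast T0 (by ring), mem_cast T0 (by ring)⟩
    constructor
    · intro h i
      rw [← h1 i]
      funext E
      exact congrFun (congrFun h E) i
    · intro h
      funext E i
      exact congrFun ((h1 i).2 (h i)) E
  x_mem l {s k k'} h {z} hk hz i := by
    rw [sumSys_act]
    exact mem_cast T0 (by ring) (T0.x_mem l _ (hd i k hk) (hz i))
  θ_x l {s k k'} h {z} hk hz := by
    funext E i
    rw [sumSys_act, θ_cast T0 (show s + 1 - a i = s - a i + 1 by ring),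
      T0.θ_x l _ (hd i k hk) (hz i)]
    simp only [DD, Finset.sum_apply, Pi.smul_apply]
  act_mem {s k t m k'} h {z γ y} hk hk' hz hy hγ i := by
    rw [sumSys_act]
    refine mem_cast T0 (by ring) (T0.act_mem (s := s - a i) (y := y i) _ (hd i k hk)
      (hd i k' hk') (hz i) ?_ hγ)
    funext E
    have h1 := congrFun (congrFun hy E) i
    refine h1.trans ?_
    by_cases hE : E = 0
    · subst hE
      simp
    · simp [hE]
  θ_act {s k t m k'} h {z γ y} hk hk' hz hy hγ := by
    funext E i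
    rw [sumSys_act, θ_cast T0 (show s + t - a i = s - a i + t by ring),
      T0.θ_act (s := s - a i) (y := y i) _ (hd i k hk) (hd i k' hk') (hz i) ?_ hγ]
    · rfl
    · funext E
      have h1 := congrFun (congrFun hy E) i
      refine h1.trans ?_
      by_cases hE : E = 0
      · subst hE
        simp
      · simp [hE]
  ev_surj {k} hk y := by
    choose u hu using fun i => T0.ev_surj (hd i k hk) (y i)
    exact ⟨u, funext hu⟩
  ev_lift {s k z} hk hz h0 := by
    have h1 : ∀ i, ∃ b ∈ T0.F (s - a i + 1) (k - e i), B.ev _ b = B.ev _ (z i) :=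
      fun i => T0.ev_lift (hd i k hk) (hz i) (congrFun h0 i)
    choose b hb hbe using h1
    exact ⟨b, fun i => mem_cast T0 (by ring) (hb i), funext hbe⟩
  ev_zero {s k z} hk hz h0 := by
    funext i
    exact T0.ev_zero (hd i k hk) (hz i) (congrFun h0 i)
  ev_sep {k} hk x hx := by
    funext i
    refine T0.ev_sep (hd i k hk) _ fun s => ?_
    obtain ⟨z, hz, hzx⟩ := hx (s + a i)
    exact ⟨z i, mem_cast T0 (by ring) (hz i), congrFun hzx i⟩

end sum

section

variable {B : Sys S} {TB : ∀ d, FS B (grR p n) d} {g : B.A 0}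

/-- **(F4)** for maps in degrees `≥ d` -/
theorem specF4' (hB : Approx B TB g) {Y : Sys S} {N : Type} [AddCommGroup N] [Module (RR p n) N]
    {gr : ℤ → ℤ → AddSubgroup N} {d : ℤ} (T : FS Y gr d) {r : ℕ} {e : Fin r → ℤ} (a : Fin r → ℤ)
    (c : ∀ i, PMap d B Y (e i)) (f : (Fin r → RR p n) →ₗ[RR p n] N) (hde : ∀ i, d ≤ e i)
    (hcF : ∀ i, (c i).f (zero_add (e i)) g ∈ T.F (a i) (e i))
    (hcθ : ∀ i, T.θ (a i) (e i) ((c i).f (zero_add (e i)) g) = del (f (Pi.single i 1))) :
    ∃ T' : FS (sumSys B e) (grFree p n e a) d, ∀ (k s : ℤ) (z : (sumSys B e).A k), d ≤ k →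
      z ∈ T'.F s k → (sumMap c).f (add_zero k) z ∈ T.F s k ∧
        T.θ s k ((sumMap c).f (add_zero k) z) = fun E => f (T'.θ s k z E) := by
  -- one filtration of `B`
  obtain ⟨m, hm⟩ := exists_lb fun i => d - e i
  set d' : ℤ := min m 0 with hd'
  have hd'0 : d' ≤ 0 := min_le_right _ _
  have hd : ∀ i (k : ℤ), d ≤ k → d' ≤ k - e i := fun i k hk => by
    have h1 := hm i
    have h2 : d' ≤ m := min_le_left _ _
    omega
  refine ⟨fsSum e (TB d') hd a, fun k s w hk hz => ?_⟩
  replace hz : ∀ i, w i ∈ (TB d').F (s - a i) (k - e i) := hz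
  -- one summand
  have key : ∀ i, (c i).f (sub_add_cancel k (e i)) (w i) ∈ T.F s k ∧
      T.θ s k ((c i).f (sub_add_cancel k (e i)) (w i)) =
        fun E => (TB d').θ (s - a i) (k - e i) (w i) E • f (Pi.single i 1) := by
    intro i
    obtain ⟨M₁, hM₁⟩ := exists_pow T (s + 1) k hk
    obtain ⟨M₂, hM₂⟩ := exists_pow (TB d') (s - a i + 1) (k - e i) (hd i k hk)
    obtain ⟨γ, hγ, v, hv⟩ := hB.appr d' (k - e i) (s - a i) (w i) (max M₁ M₂) (hz i)
    have h1 := hM₁ _ (le_max_left M₁ M₂) ((c i).f (sub_add_cancel k (e i)) v)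
    have h2 := hM₂ _ (le_max_right M₁ M₂) v
    -- in `Y`
    have h3 : (c i).f (sub_add_cancel k (e i)) (w i) =
        Y.act (add_sub_cancel (e i) k) ((c i).f (zero_add (e i)) g) γ +
          p ^ max M₁ M₂ • (c i).f (sub_add_cancel k (e i)) v := by
      rw [hv, map_add, map_nsmul, (c i).act _ (zero_add (e i)) (add_sub_cancel (e i) k) _ _ _
        (hde i) hk]
    have h4 := T.act_mem (add_sub_cancel (e i) k) (hde i) hk (hcF i) (hcθ i) hγ
    have h5 := T.θ_act (add_sub_cancel (e i) k) (hde i) hk (hcF i) (hcθ i) hγ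
    have e1 : a i + (s - a i) = s := add_sub_cancel _ _
    replace h4 := mem_cast T e1 h4
    rw [θ_cast T e1] at h5
    -- in `B`
    have h6 := (TB d').θ_act (zero_add (k - e i)) hd'0 (hd i k hk) (hB.mem d') (hB.θg d') hγ
    have h7 := (TB d').act_mem (zero_add (k - e i)) hd'0 (hd i k hk) (hB.mem d') (hB.θg d') hγ
    have e2 : 0 + (s - a i) = s - a i := zero_add _
    replace h7 := mem_cast (TB d') e2 h7
    rw [θ_cast (TB d') e2] at h6
    have h8 : (TB d').θ (s - a i) (k - e i) (w i) = fun E => S.θ (s - a i) _ γ E := by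
      rw [hv, θ_add_of_mem (TB d') (hd i k hk) h7 h2, h6]
      funext E
      rw [smul_eq_mul, mul_one]
    refine ⟨?_, ?_⟩
    · rw [h3]
      exact AddSubgroup.add_mem _ h4 (T.mono (by omega) h1)
    · rw [h3, θ_add_of_mem T hk h4 h1, h5, h8]
  refine ⟨?_, ?_⟩
  · rw [sumMap_f]
    exact AddSubgroup.sum_mem _ fun i _ => (key i).1
  · rw [sumMap_f, θ_sum T hk _ _ fun i _ => (key i).1]
    funext E
    change _ = f fun i => (TB d').θ (s - a i) (k - e i) (w i) E
    rw [Finset.sum_apply, LinearMap.pi_apply_eq_sum_univ f]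
    refine Finset.sum_congr rfl fun i _ => ?_
    have h1 : (fun l => if i = l then 1 else 0 : Fin r → RR p n) = Pi.single i 1 := by
      funext l
      rw [Pi.single_apply]
      exact if_congr eq_comm rfl rfl
    rw [(key i).2, h1]

/-- every element of `B.A k` is of bounded filtration -/
theorem exists_filt (TB : ∀ d, FS B (grR p n) d) (k : ℤ) (w : B.A k) :
    ∃ d s, d ≤ 0 ∧ d ≤ k ∧ w ∈ (TB d).F s k := by
  obtain ⟨s, hs⟩ := (TB (min k 0)).exh (min_le_left k 0)
  refine ⟨min k 0, s, min_le_right _ _, min_le_left _ _, ?_⟩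
  rw [hs]
  exact AddSubgroup.mem_top _

/-- **Lemma D.** A map out of `B` which kills `g` vanishes. -/
theorem eq_zero_of_g (hB : Approx B TB g) {Y : Sys S} {N : Type} [AddCommGroup N]
    [Module (RR p n) N] {gr : ℤ → ℤ → AddSubgroup N} {d : ℤ} (T : FS Y gr d) {e : ℤ}
    (c : PMap d B Y e) (hde : d ≤ e) (h0 : c.f (zero_add e) g = 0) :
    (∀ {k k' : ℤ} (h : k + e = k'), d ≤ k' → ∀ w : B.A k, c.f h w = 0) ∧
      ∀ {k k' : ℤ} (h : k + e = k'), d ≤ k' → ∀ w : B.Pi k, c.g h w = 0 := by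
  have hA : ∀ {k k' : ℤ} (h : k + e = k'), d ≤ k' → ∀ w : B.A k, c.f h w = 0 := by
    intro k k' h hk' w
    refine T.sep hk' _ fun s => ?_
    obtain ⟨M, hM⟩ := exists_pow T s k' hk'
    obtain ⟨d₁, s₁, _, _, hw⟩ := exists_filt TB k w
    obtain ⟨γ, _, v, hv⟩ := hB.appr d₁ k s₁ w M hw
    rw [hv, map_add, map_nsmul, c.act (zero_add k) (zero_add e) (show e + k = k' by omega) h _ _
      hde hk', h0, map_zero, AddMonoidHom.zero_apply, zero_add]
    exact hM M le_rfl _
  refine ⟨hA, fun {k k'} h hk' w => ?_⟩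
  obtain ⟨a, rfl⟩ := (TB k).ev_surj le_rfl w
  rw [← c.ev h a hk', hA h hk' a, map_zero]

end

end Vale.Agent.P221.V
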