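import Vale.Agent.P221.V.F3
import Vale.Agent.P221.V.F4
import Vale.Agent.P221.V.Ext
import Vale.Agent.P221.H136.Res

/-!
# P221, part V: generators of an iterated extension, and the kernel of the map given by them
-/

open MvPolynomial

set_option linter.unusedSectionVars false

namespace Vale.Agent.P221.V

open Vale.Agent.P221.T

variable {p n : ℕ} {S : Src p n} [Fact p.Prime]

/-- the components in `I` -/
def sumRes (B : Sys S) {J I : Type} (e : J → ℤ) (σ : I → J) (d : ℤ) :
    PMap d (sumSys B e) (sumSys B fun i => e (σ i)) 0 where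
  f {k k'} h := by
    obtain rfl : k = k' := by omega
    exact AddMonoidHom.mk' (fun (w : ∀ j, B.A (k - e j)) i => w (σ i)) fun w w' => rfl
  g {k k'} h := by
    obtain rfl : k = k' := by omega
    exact AddMonoidHom.mk' (fun (w : ∀ j, B.Pi (k - e j)) i => w (σ i)) fun w w' => rfl
  ev {k k'} h a _ := by
    obtain rfl : k = k' := by omega
    rfl
  act {k m l k' l'} h h₁ h₂ h₃ a γ _ _ := by
    obtain rfl : k = k' := by omega
    obtain rfl : l = l' := by omega
    rfl

theorem sumRes_f (B : Sys S) {J I : Type} (e : J → ℤ) (σ : I → J) (d : ℤ) {k : ℤ}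
    (w : (sumSys B e).A k) (i : I) : (sumRes B e σ d).f (add_zero k) w i = w (σ i) := rfl

theorem sumRes_g (B : Sys S) {J I : Type} (e : J → ℤ) (σ : I → J) (d : ℤ) {k : ℤ}
    (w : (sumSys B e).Pi k) (i : I) : (sumRes B e σ d).g (add_zero k) w i = w (σ i) := rfl

section step

variable {B Y Q : Sys S} {d : ℤ} (b : PMap d Y Q 0) {J I : Type} [Fintype J] [Fintype I]
  {e : J ⊕ I → ℤ} (c : ∀ j, PMap d B Y (e j)) (c' : ∀ j : J, PMap d B b.ker.sys (e (Sum.inl j)))
  (hc : ∀ (j : J) {k k' : ℤ} (h : k + e (Sum.inl j) = k'), d ≤ k' → ∀ w : B.A k,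
    b.ker.vA k' ((c' j).f h w) = (c (Sum.inl j)).f h w)
  (hc' : ∀ (j : J) {k k' : ℤ} (h : k + e (Sum.inl j) = k'), d ≤ k' → ∀ w : B.Pi k,
    b.ker.vP k' ((c' j).g h w) = (c (Sum.inl j)).g h w)

/-- an element of the sum -/
def mkA {k : ℤ} (w' : (sumSys B fun j => e (Sum.inl j)).A k)
    (w'' : (sumSys B fun j => e (Sum.inr j)).A k) : (sumSys B e).A k :=
  fun j => Sum.rec (motive := fun j => B.A (k - e j)) w' w'' j

/-- an element of the sum -/
def mkP {k : ℤ} (w' : (sumSys B fun j => e (Sum.inl j)).Pi k)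
    (w'' : (sumSys B fun j => e (Sum.inr j)).Pi k) : (sumSys B e).Pi k :=
  fun j => Sum.rec (motive := fun j => B.Pi (k - e j)) w' w'' j

/-- the second part of the map -/
def inrMap : ∀ j : I, PMap d B Y (e (Sum.inr j)) := fun j => c (Sum.inr j)

/-- the map on the quotient -/
def quoMap : ∀ j : I, PMap d B Q (e (Sum.inr j)) := fun j => (c (Sum.inr j)).comp b

theorem b_inrMap {k : ℤ} (w : (sumSys B fun j => e (Sum.inr j)).A k) :
    b.f (add_zero k) ((sumMap (inrMap c)).f (add_zero k) w) =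
      (sumMap (quoMap b c)).f (add_zero k) w := by
  rw [sumMap_f, sumMap_f, map_sum]
  rfl

theorem b_inrMapP {k : ℤ} (w : (sumSys B fun j => e (Sum.inr j)).Pi k) :
    b.g (add_zero k) ((sumMap (inrMap c)).g (add_zero k) w) =
      (sumMap (quoMap b c)).g (add_zero k) w := by
  rw [sumMap_g, sumMap_g, map_sum]
  rfl

include hc in
theorem sum_split {k : ℤ} (hk : d ≤ k) (w : (sumSys B e).A k) :
    (sumMap c).f (add_zero k) w =
      b.ker.vA k ((sumMap c').f (add_zero k) ((sumRes B e Sum.inl d).f (add_zero k) w)) +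
        (sumMap (inrMap c)).f (add_zero k) ((sumRes B e Sum.inr d).f (add_zero k) w) := by
  rw [sumMap_f, Fintype.sum_sum_type, sumMap_f, sumMap_f, map_sum]
  refine congrArg₂ (· + ·) (Finset.sum_congr rfl fun j _ => ?_) rfl
  rw [hc j _ hk]
  rfl

include hc' in
theorem sum_splitP {k : ℤ} (hk : d ≤ k) (w : (sumSys B e).Pi k) :
    (sumMap c).g (add_zero k) w =
      b.ker.vP k ((sumMap c').g (add_zero k) ((sumRes B e Sum.inl d).g (add_zero k) w)) +
        (sumMap (inrMap c)).g (add_zero k) ((sumRes B e Sum.inr d).g (add_zero k) w) := by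
  rw [sumMap_g, Fintype.sum_sum_type, sumMap_g, sumMap_g, map_sum]
  refine congrArg₂ (· + ·) (Finset.sum_congr rfl fun j _ => ?_) rfl
  rw [hc' j _ hk]
  rfl

include hc in
theorem sum_mk {k : ℤ} (hk : d ≤ k) (w' : (sumSys B fun j => e (Sum.inl j)).A k)
    (w'' : (sumSys B fun j => e (Sum.inr j)).A k) :
    (sumMap c).f (add_zero k) (mkA w' w'') = b.ker.vA k ((sumMap c').f (add_zero k) w') +
      (sumMap (inrMap c)).f (add_zero k) w'' := sum_split b c c' hc hk (mkA w' w'')

include hc' in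
theorem sum_mkP {k : ℤ} (hk : d ≤ k) (w' : (sumSys B fun j => e (Sum.inl j)).Pi k)
    (w'' : (sumSys B fun j => e (Sum.inr j)).Pi k) :
    (sumMap c).g (add_zero k) (mkP w' w'') = b.ker.vP k ((sumMap c').g (add_zero k) w') +
      (sumMap (inrMap c)).g (add_zero k) w'' := sum_splitP b c c' hc' hk (mkP w' w'')

theorem b_vA {k : ℤ} (hk : d ≤ k) (a : b.ker.sys.A k) :
    b.f (add_zero k) (b.ker.vA k a) = 0 := b.ker.vA_mem hk a

theorem b_vP {k : ℤ} (hk : d ≤ k) (a : b.ker.sys.Pi k) :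
    b.g (add_zero k) (b.ker.vP k a) = 0 := b.ker.vP_mem hk a

include hc in
theorem b_sum {k : ℤ} (hk : d ≤ k) (w : (sumSys B e).A k) :
    b.f (add_zero k) ((sumMap c).f (add_zero k) w) =
      (sumMap (quoMap b c)).f (add_zero k) ((sumRes B e Sum.inr d).f (add_zero k) w) := by
  rw [sum_split b c c' hc hk, map_add, b_vA b hk, zero_add, b_inrMap]

include hc' in
theorem b_sumP {k : ℤ} (hk : d ≤ k) (w : (sumSys B e).Pi k) :
    b.g (add_zero k) ((sumMap c).g (add_zero k) w) =
      (sumMap (quoMap b c)).g (add_zero k) ((sumRes B e Sum.inr d).g (add_zero k) w) := by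
  rw [sum_splitP b c c' hc' hk, map_add, b_vP b hk, zero_add, b_inrMapP]

theorem step_onto (hc : ∀ (j : J) {k k' : ℤ} (h : k + e (Sum.inl j) = k'), d ≤ k' →
      ∀ w : B.A k, b.ker.vA k' ((c' j).f h w) = (c (Sum.inl j)).f h w)
    (hc' : ∀ (j : J) {k k' : ℤ} (h : k + e (Sum.inl j) = k'), d ≤ k' → ∀ w : B.Pi k,
      b.ker.vP k' ((c' j).g h w) = (c (Sum.inl j)).g h w)
    (ho' : (sumMap c').Onto) (ho'' : (sumMap (quoMap b c)).Onto) : (sumMap c).Onto := by
  refine ⟨fun k hk y => ?_, fun k hk y => ?_⟩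
  · obtain ⟨w'', hw''⟩ := ho''.1 k hk (b.f (add_zero k) y)
    have h1 : y - (sumMap (inrMap c)).f (add_zero k) w'' ∈ b.ker.A k := by
      rw [PMap.mem_ker, map_sub, b_inrMap, hw'', sub_self]
    obtain ⟨w', hw'⟩ := ho'.1 k hk (b.ker.el hk _ h1)
    refine ⟨mkA w' w'', ?_⟩
    rw [sum_mk b c c' hc hk, hw', PSub.vA_el, sub_add_cancel]
  · obtain ⟨w'', hw''⟩ := ho''.2 k hk (b.g (add_zero k) y)
    have h1 : y - (sumMap (inrMap c)).g (add_zero k) w'' ∈ b.ker.Pi k := by
      rw [PMap.mem_kerP, map_sub, b_inrMapP, hw'', sub_self]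
    obtain ⟨w', hw'⟩ := ho'.2 k hk (b.ker.elP hk _ h1)
    refine ⟨mkP w' w'', ?_⟩
    rw [sum_mkP b c c' hc' hk, hw', PSub.vP_elP, sub_add_cancel]

include hc in
theorem hatA (k : ℤ) (hk : d ≤ k) (a : (sumSys B e).A k) (ha : (sumMap c).f (add_zero k) a = 0) :
    (sumMap (quoMap b c)).f (add_zero k) ((sumRes B e Sum.inr d).f (add_zero k) a) = 0 := by
  rw [← b_sum b c c' hc hk, ha, map_zero]

include hc' in
theorem hatP (k : ℤ) (hk : d ≤ k) (a : (sumSys B e).Pi k) (ha : (sumMap c).g (add_zero k) a = 0) :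
    (sumMap (quoMap b c)).g (add_zero k) ((sumRes B e Sum.inr d).g (add_zero k) a) = 0 := by
  rw [← b_sumP b c c' hc' hk, ha, map_zero]

/-- the kernel of the sum map, on the quotient -/
noncomputable def hat (hc : ∀ (j : J) {k k' : ℤ} (h : k + e (Sum.inl j) = k'), d ≤ k' →
      ∀ w : B.A k, b.ker.vA k' ((c' j).f h w) = (c (Sum.inl j)).f h w)
    (hc' : ∀ (j : J) {k k' : ℤ} (h : k + e (Sum.inl j) = k'), d ≤ k' → ∀ w : B.Pi k,
      b.ker.vP k' ((c' j).g h w) = (c (Sum.inl j)).g h w) :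
    PMap d (sumMap c).ker.sys (sumMap (quoMap b c)).ker.sys 0 :=
  kerMap (sumRes B e Sum.inr d) (sumMap c) (sumMap (quoMap b c)) (hatA b c c' hc)
    (hatP b c c' hc')

theorem vA_hat {k : ℤ} (hk : d ≤ k) (a : (sumMap c).ker.sys.A k) :
    (sumMap (quoMap b c)).ker.vA k ((hat b c c' hc hc').f (add_zero k) a) =
      (sumRes B e Sum.inr d).f (add_zero k) ((sumMap c).ker.vA k a) := vA_kerMap hk a

theorem vP_hat {k : ℤ} (hk : d ≤ k) (a : (sumMap c).ker.sys.Pi k) :
    (sumMap (quoMap b c)).ker.vP k ((hat b c c' hc hc').g (add_zero k) a) =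
      (sumRes B e Sum.inr d).g (add_zero k) ((sumMap c).ker.vP k a) := vP_kerMap hk a

theorem hat_onto (ho' : (sumMap c').Onto) : (hat b c c' hc hc').Onto := by
  refine ⟨fun k hk w => ?_, fun k hk w => ?_⟩
  · set w'' := (sumMap (quoMap b c)).ker.vA k w with hw''
    have h0 : (sumMap (quoMap b c)).f (add_zero k) w'' = 0 := b_vA _ hk w
    have h1 : -(sumMap (inrMap c)).f (add_zero k) w'' ∈ b.ker.A k := by
      rw [PMap.mem_ker, map_neg, b_inrMap, h0, neg_zero]
    obtain ⟨w', hw'⟩ := ho'.1 k hk (b.ker.el hk _ h1)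
    have h2 : (sumMap c).f (add_zero k) (mkA w' w'') = 0 := by
      rw [sum_mk b c c' hc hk, hw', PSub.vA_el, neg_add_cancel]
    refine ⟨(sumMap c).ker.el hk (mkA w' w'') h2, PSub.vA_inj _ ?_⟩
    rw [vA_hat b c c' hc hc' hk]
    rfl
  · set w'' := (sumMap (quoMap b c)).ker.vP k w with hw''
    have h0 : (sumMap (quoMap b c)).g (add_zero k) w'' = 0 := b_vP _ hk w
    have h1 : -(sumMap (inrMap c)).g (add_zero k) w'' ∈ b.ker.Pi k := by
      rw [PMap.mem_kerP, map_neg, b_inrMapP, h0, neg_zero]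
    obtain ⟨w', hw'⟩ := ho'.2 k hk (b.ker.elP hk _ h1)
    have h2 : (sumMap c).g (add_zero k) (mkP w' w'') = 0 := by
      rw [sum_mkP b c c' hc' hk, hw', PSub.vP_elP, neg_add_cancel]
    refine ⟨(sumMap c).ker.elP hk (mkP w' w'') h2, PSub.vP_inj _ ?_⟩
    rw [vP_hat b c c' hc hc' hk]
    rfl

/-- the element of the sum -/
noncomputable def wA {k : ℤ} (a : (hat b c c' hc hc').ker.sys.A k) : (sumSys B e).A k :=
  (sumMap c).ker.vA k ((hat b c c' hc hc').ker.vA k a)

/-- the element of the sum -/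
noncomputable def wP {k : ℤ} (a : (hat b c c' hc hc').ker.sys.Pi k) : (sumSys B e).Pi k :=
  (sumMap c).ker.vP k ((hat b c c' hc hc').ker.vP k a)

theorem wA_inr {k : ℤ} (hk : d ≤ k) (a : (hat b c c' hc hc').ker.sys.A k) :
    (sumRes B e Sum.inr d).f (add_zero k) (wA b c c' hc hc' a) = 0 := by
  unfold wA
  rw [← vA_hat b c c' hc hc' hk, b_vA _ hk a, map_zero]

theorem wP_inr {k : ℤ} (hk : d ≤ k) (a : (hat b c c' hc hc').ker.sys.Pi k) :
    (sumRes B e Sum.inr d).g (add_zero k) (wP b c c' hc hc' a) = 0 := by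
  unfold wP
  rw [← vP_hat b c c' hc hc' hk, b_vP _ hk a, map_zero]

theorem wA_inl {k : ℤ} (hk : d ≤ k) (a : (hat b c c' hc hc').ker.sys.A k) :
    (sumMap c').f (add_zero k) ((sumRes B e Sum.inl d).f (add_zero k) (wA b c c' hc hc' a)) =
      0 := by
  apply b.ker.vA_inj
  have h1 := sum_split b c c' hc hk (wA b c c' hc hc' a)
  rw [wA_inr b c c' hc hc' hk, map_zero, add_zero] at h1
  rw [← h1, map_zero]
  exact b_vA _ hk _

theorem wP_inl {k : ℤ} (hk : d ≤ k) (a : (hat b c c' hc hc').ker.sys.Pi k) :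
    (sumMap c').g (add_zero k) ((sumRes B e Sum.inl d).g (add_zero k) (wP b c c' hc hc' a)) =
      0 := by
  apply b.ker.vP_inj
  have h1 := sum_splitP b c c' hc' hk (wP b c c' hc hc' a)
  rw [wP_inr b c c' hc hc' hk, map_zero, add_zero] at h1
  rw [← h1, map_zero]
  exact b_vP _ hk _

/-- the kernel of `hat` is the kernel of the first part -/
noncomputable def hatKer : PMap d (hat b c c' hc hc').ker.sys (sumMap c').ker.sys 0 :=
  (sumMap c').ker.cod
    (((hat b c c' hc hc').ker.incl.comp (sumMap c).ker.incl).comp (sumRes B e Sum.inl d))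
    (fun {k k'} h hk a => by
      obtain rfl : k = k' := by omega
      exact wA_inl b c c' hc hc' hk a)
    (fun {k k'} h hk a => by
      obtain rfl : k = k' := by omega
      exact wP_inl b c c' hc hc' hk a)

theorem vA_hatKer {k : ℤ} (hk : d ≤ k) (a : (hat b c c' hc hc').ker.sys.A k) :
    (sumMap c').ker.vA k ((hatKer b c c' hc hc').f (add_zero k) a) =
      (sumRes B e Sum.inl d).f (add_zero k) (wA b c c' hc hc' a) :=
  (sumMap c').ker.vA_cod
    (((hat b c c' hc hc').ker.incl.comp (sumMap c).ker.incl).comp (sumRes B e Sum.inl d))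
    (fun {k k'} h hk a => by
      obtain rfl : k = k' := by omega
      exact wA_inl b c c' hc hc' hk a)
    (fun {k k'} h hk a => by
      obtain rfl : k = k' := by omega
      exact wP_inl b c c' hc hc' hk a) (add_zero k) hk a

theorem vP_hatKer {k : ℤ} (hk : d ≤ k) (a : (hat b c c' hc hc').ker.sys.Pi k) :
    (sumMap c').ker.vP k ((hatKer b c c' hc hc').g (add_zero k) a) =
      (sumRes B e Sum.inl d).g (add_zero k) (wP b c c' hc hc' a) :=
  (sumMap c').ker.vP_cod
    (((hat b c c' hc hc').ker.incl.comp (sumMap c).ker.incl).comp (sumRes B e Sum.inl d))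
    (fun {k k'} h hk a => by
      obtain rfl : k = k' := by omega
      exact wA_inl b c c' hc hc' hk a)
    (fun {k k'} h hk a => by
      obtain rfl : k = k' := by omega
      exact wP_inl b c c' hc hc' hk a) (add_zero k) hk a

theorem hatKer_onto : (hatKer b c c' hc hc').Onto := by
  refine ⟨fun k hk w => ?_, fun k hk w => ?_⟩
  · set w' := (sumMap c').ker.vA k w with hw'
    have h0 : (sumMap c').f (add_zero k) w' = 0 := b_vA _ hk w
    have h2 : (sumMap c).f (add_zero k) (mkA w' 0) = 0 := by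
      rw [sum_mk b c c' hc hk, h0, map_zero, map_zero, add_zero]
    have h3 : (hat b c c' hc hc').f (add_zero k) ((sumMap c).ker.el hk (mkA w' 0) h2) = 0 := by
      apply PSub.vA_inj
      rw [vA_hat b c c' hc hc' hk, map_zero]
      rfl
    refine ⟨(hat b c c' hc hc').ker.el hk _ h3, PSub.vA_inj _ ?_⟩
    rw [vA_hatKer b c c' hc hc' hk]
    rfl
  · set w' := (sumMap c').ker.vP k w with hw'
    have h0 : (sumMap c').g (add_zero k) w' = 0 := b_vP _ hk w
    have h2 : (sumMap c).g (add_zero k) (mkP w' 0) = 0 := by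
      rw [sum_mkP b c c' hc' hk, h0, map_zero, map_zero, add_zero]
    have h3 : (hat b c c' hc hc').g (add_zero k) ((sumMap c).ker.elP hk (mkP w' 0) h2) = 0 := by
      apply PSub.vP_inj
      rw [vP_hat b c c' hc hc' hk, map_zero]
      rfl
    refine ⟨(hat b c c' hc hc').ker.elP hk _ h3, PSub.vP_inj _ ?_⟩
    rw [vP_hatKer b c c' hc hc' hk]
    rfl

theorem hatKer_inj : (hatKer b c c' hc hc').Inj := by
  refine ⟨fun k hk a ha => ?_, fun k hk a ha => ?_⟩
  · have h1 := vA_hatKer b c c' hc hc' hk a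
    rw [ha, map_zero] at h1
    have h2 := wA_inr b c c' hc hc' hk a
    have h3 : wA b c c' hc hc' a = 0 := by
      funext j
      rcases j with j | j
      · exact (congrFun h1 j).symm
      · exact congrFun h2 j
    apply PSub.vA_inj
    apply PSub.vA_inj
    rw [map_zero, map_zero]
    exact h3
  · have h1 := vP_hatKer b c c' hc hc' hk a
    rw [ha, map_zero] at h1
    have h2 := wP_inr b c c' hc hc' hk a
    have h3 : wP b c c' hc hc' a = 0 := by
      funext j
      rcases j with j | j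
      · exact (congrFun h1 j).symm
      · exact congrFun h2 j
    apply PSub.vP_inj
    apply PSub.vP_inj
    rw [map_zero, map_zero]
    exact h3

end step

/-! ### generators -/

section gens

variable {B : Sys S} {TB : ∀ d, FS B (grR p n) d} {g : B.A 0}

theorem gens_one {r : ℕ} {e a : Fin r → ℤ} (j : Fin r) :
    (Pi.single j 1 : Fin r → RR p n) ∈ grFree p n e a (e j) (a j) := by
  rw [mem_grFree]
  intro j'
  by_cases h : j' = j
  · subst h
    rw [Pi.single_eq_same, sub_self, sub_self]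
    exact ⟨MvPolynomial.isWeightedHomogeneous_one _ _,
      MvPolynomial.isWeightedHomogeneous_one _ _⟩
  · rw [Pi.single_eq_of_ne h]
    exact (grR p n _ _).zero_mem

/-- (V2) -/
theorem gens_aux (hB : Approx B TB g) (hx : ∀ l, S.x l ∈ S.F 1 _)
    (hθ : ∀ l, S.θ 1 _ (S.x l) = 0) {d : ℤ} {i : ℕ} : ∀ (m : ℕ) (Y : Sys S),
    FExt d (i + 1) m Y → ∃ (J : Type) (_ : Fintype J) (e : J → ℤ) (α : ∀ j, Y.A (e j)),
      (∀ j, d ≤ e j) ∧ (∀ j l, Y.act rfl (α j) (S.x l) = 0) ∧
      ∀ (c : ∀ j, PMap d B Y (e j)), (∀ j, (c j).f (zero_add (e j)) g = α j) →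
        (sumMap c).Onto ∧ FExt d i m (sumMap c).ker.sys := by
  have hp : p.Prime := Fact.out
  intro m
  induction m with
  | zero =>
    intro Y h
    refine ⟨Fin 0, inferInstance, Fin.elim0, fun j => j.elim0, fun j => j.elim0,
      fun j => j.elim0, fun c _ => ⟨⟨fun k hk y => ⟨0, ?_⟩, fun k hk y => ⟨0, ?_⟩⟩,
        fun k hk a => ?_, fun k hk a => ?_⟩⟩
    · rw [map_zero, h.1 k hk y]
    · rw [map_zero, h.2 k hk y]
    · apply PSub.vA_inj
      funext j
      exact j.elim0
    · apply PSub.vP_inj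
      funext j
      exact j.elim0
  | succ m ih =>
    intro Y h
    obtain ⟨Q, b, N, _, _, gr, hb, hgr, hQ, ⟨T⟩, hK⟩ := h
    obtain ⟨J, _, e', α', he', hα', hJ⟩ := ih _ hK
    obtain ⟨r, e'', a'', f, he'', hf, hKf⟩ := (QQ_succ d i gr).1 hQ
    obtain ⟨-, hv'⟩ := specVan_all hp.two_le d (i + 1) N gr hgr hQ
    have hdd : ∀ {k : ℤ} (l : ℕ), d ≤ k → d ≤ k + dd p n l := fun l hk => by
      have := dd_nonneg' (p := p) (n := n) l
      omega
    -- the generators of the quotient
    choose β hβ hβθ hβx using fun j => H769.specF2 hp.pos S Q N gr d T hv' hx hθ (e'' j) (a'' j)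
      (he'' j).1 (f (Pi.single j 1)) (hf.map _ _ _ (gens_one j))
    have hlift : ∀ j, ∃ α : Y.A (e'' j), b.f (add_zero _) α = β j ∧
        ∀ l, Y.act rfl α (S.x l) = 0 := by
      intro j
      have hj := (he'' j).1
      obtain ⟨y, hy⟩ := hb.1 _ hj (β j)
      have h1 : ∀ l, Y.act rfl y (S.x l) ∈ b.ker.A (e'' j + dd p n l) := fun l => by
        rw [PMap.mem_ker, b.act rfl (add_zero _) rfl (add_zero _) y (S.x l) hj (hdd l hj), hy,
          hβx j l]
      obtain ⟨φ, hφ⟩ := FExt.solve (Or.inl rfl) m _ hK (e'' j) hj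
        (fun l => b.ker.el (hdd l hj) _ (h1 l)) (fun i _ l _ k' h h' => by
          have h2 : d ≤ k' := by
            have e1 := dd_nonneg' (p := p) (n := n) i
            have e2 := dd_nonneg' (p := p) (n := n) l
            omega
          apply b.ker.vA_inj
          rw [PSub.vA_act _ _ h2, PSub.vA_act _ _ h2, PSub.vA_el, PSub.vA_el]
          exact Y.comm l i rfl h rfl h' y)
      refine ⟨y - b.ker.vA _ φ, ?_, fun l => ?_⟩
      · rw [map_sub, b_vA b hj, hy, sub_zero]
      · have h2 := congrArg (b.ker.vA _) (hφ l (Set.mem_univ l))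
        rw [PSub.vA_act _ _ (hdd l hj), PSub.vA_el] at h2
        rw [map_sub, AddMonoidHom.sub_apply, h2, sub_self]
    choose α'' hα'' hα''x using hlift
    let e : J ⊕ Fin r → ℤ := Sum.elim e' e''
    let α : ∀ j, Y.A (e j) := fun j => Sum.rec (motive := fun j => Y.A (e j))
      (fun j => b.ker.vA _ (α' j)) α'' j
    refine ⟨J ⊕ Fin r, inferInstance, e, α, ?_, ?_, fun c hc => ?_⟩
    · rintro (j | j)
      · exact he' j
      · exact (he'' j).1
    · rintro (j | j) l
      · have h1 := congrArg (b.ker.vA _) (hα' j l)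
        rw [PSub.vA_act _ _ (hdd l (he' j)), map_zero] at h1
        exact h1
      · exact hα''x j l
    -- the maps into the kernel
    have hcl : ∀ j : J, (∀ {k k' : ℤ} (h : k + e (Sum.inl j) = k'), d ≤ k' → ∀ w : B.A k,
        ((c (Sum.inl j)).comp b).f h w = 0) ∧ ∀ {k k' : ℤ} (h : k + e (Sum.inl j) = k'),
        d ≤ k' → ∀ w : B.Pi k, ((c (Sum.inl j)).comp b).g h w = 0 := fun j =>
      eq_zero_of_g hB T ((c (Sum.inl j)).comp b) (he' j) (by
        change b.f (add_zero _) ((c (Sum.inl j)).f _ g) = 0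
        rw [hc (Sum.inl j)]
        exact b_vA b (he' j) (α' j))
    let c' : ∀ j : J, PMap d B b.ker.sys (e (Sum.inl j)) := fun j =>
      b.ker.cod (c (Sum.inl j)) (fun h hk a => (hcl j).1 h hk a) fun h hk a => (hcl j).2 h hk a
    have hc₁ : ∀ (j : J) {k k' : ℤ} (h : k + e (Sum.inl j) = k'), d ≤ k' → ∀ w : B.A k,
        b.ker.vA k' ((c' j).f h w) = (c (Sum.inl j)).f h w := fun j _ _ h hk w =>
      b.ker.vA_cod (c (Sum.inl j)) (fun h hk a => (hcl j).1 h hk a)
        (fun h hk a => (hcl j).2 h hk a) h hk w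
    have hc₂ : ∀ (j : J) {k k' : ℤ} (h : k + e (Sum.inl j) = k'), d ≤ k' → ∀ w : B.Pi k,
        b.ker.vP k' ((c' j).g h w) = (c (Sum.inl j)).g h w := fun j _ _ h hk w =>
      b.ker.vP_cod (c (Sum.inl j)) (fun h hk a => (hcl j).1 h hk a)
        (fun h hk a => (hcl j).2 h hk a) h hk w
    obtain ⟨ho', hK'⟩ := hJ c' fun j => b.ker.vA_inj ((hc₁ j _ (he' j) g).trans (hc (Sum.inl j)))
    -- the maps to the quotient
    let c₂ : ∀ j : Fin r, PMap d B Q (e'' j) := quoMap b c
    have hg : ∀ j : Fin r, (c₂ j).f (zero_add (e'' j)) g = β j := fun j => by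
      refine Eq.trans ?_ (hα'' j)
      exact congrArg (b.f (add_zero (e'' j))) (hc (Sum.inr j))
    obtain ⟨T', hT'⟩ := specF4' hB T a'' c₂ f (fun j => (he'' j).1)
      (fun j => by rw [hg j]; exact hβ j) (fun j => by rw [hg j]; exact hβθ j)
    have ho'' : (sumMap (quoMap b c)).Onto := onto_of_strict T' T f _ hf hT'
    obtain ⟨T''⟩ := fs_ker T' T f _ hf hT'
    refine ⟨step_onto b c c' hc₁ hc₂ ho' ho'', (sumMap (quoMap b c)).ker.sys,
      hat b c c' hc₁ hc₂, Fin r → RR p n, inferInstance, inferInstance,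
      kerGr (grFree p n e'' a'') f, hat_onto b c c' hc₁ hc₂ ho',
      isGr_ker (isGr_free e'' a'') f, hKf, ⟨T''⟩, ?_⟩
    exact FExt.of_iso (hatKer b c c' hc₁ hc₂) (hatKer_onto b c c' hc₁ hc₂)
      (hatKer_inj b c c' hc₁ hc₂) hK'

end gens

end Vale.Agent.P221.V
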